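import Vale.Agent.P240.Parts

/-!
# P240: groups containing the alternating groups on all blocks, at the prime two
-/

namespace Vale.Agent.P240

open Equiv

/-- An even cycle on the points satisfying `q`, their number being odd. -/
theorem exists_cycle {Ω : Type*} [Fintype Ω] [DecidableEq Ω] (q : Ω → Prop)
    (hodd : Odd (Nat.card {x // q x})) :
    ∃ c : Perm Ω, Perm.sign c = 1 ∧ c ^ Nat.card {x // q x} = 1 ∧ (∀ x, ¬ q x → c x = x) ∧
      ∀ x w, q x → q w → ∃ k : ℕ, (c ^ k) x = w := by
  classical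
  set n := Nat.card {x // q x} with hn
  have : NeZero n := ⟨fun h => by simp [h] at hodd⟩
  have e : ZMod n ≃ {x // q x} := Fintype.equivOfCardEq (by
    rw [ZMod.card, hn, Nat.card_eq_fintype_card])
  let σ : Perm (ZMod n) := Equiv.addRight 1
  have hσ : ∀ (k : ℕ) (a : ZMod n), (σ ^ k) a = a + k := by
    intro k
    induction k with
    | zero => intro a; simp
    | succ k ih => intro a; rw [pow_succ', Perm.mul_apply, ih]; simp [σ, add_assoc]
  let φ := Perm.extendDomainHom e
  have hc : (φ σ) ^ n = 1 := by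
    rw [← map_pow, show σ ^ n = 1 from Equiv.ext fun a => by simp [hσ], map_one]
  refine ⟨φ σ, ?_, hc, fun x hx => Perm.extendDomain_apply_not_subtype _ _ hx,
    fun x w hx hw => ?_⟩
  · have h1 := congrArg Perm.sign hc
    rw [map_pow, map_one] at h1
    rcases Int.units_eq_one_or (Perm.sign (φ σ)) with h | h
    · exact h
    · rw [h, hodd.neg_one_pow] at h1; exact absurd h1 (by decide)
  · refine ⟨(e.symm ⟨w, hw⟩ - e.symm ⟨x, hx⟩).val, ?_⟩
    rw [← map_pow]
    show Perm.extendDomain (σ ^ _) e x = w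
    rw [Perm.extendDomain_apply_subtype _ _ hx, hσ, ZMod.natCast_zmod_val, add_sub_cancel,
      Equiv.apply_symm_apply]

/-- The part, among three, of the `k`-th point of a block of size `n`. -/
def lab (n k : ℕ) : Fin 3 :=
  if n = 5 ∨ n = 7 then 0 else if k < 3 then 0 else if Odd n ∧ k < 6 then 1 else 2

theorem lab_card {n k : ℕ} (hn : 5 ≤ n) (hk : k < n) :
    let m := ((Finset.range n).filter fun l => lab n l = lab n k).card
    Odd m ∧ 3 ≤ m ∧ ((n = 5 ∨ n = 7) → m = n) ∧
      (¬ (n = 5 ∨ n = 7) → lab n k ≠ 2 → m = 3) := by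
  intro m
  by_cases hb : n = 5 ∨ n = 7
  · have hm : m = n := by
      simp [m, lab, hb]
    refine ⟨?_, by omega, fun _ => hm, fun h => absurd hb h⟩
    rw [hm]
    rcases hb with rfl | rfl <;> decide
  have key : ∀ a b : ℕ, b ≤ n → (∀ l, l < n → (lab n l = lab n k ↔ a ≤ l ∧ l < b)) →
      m = b - a := by
    intro a b hbn h
    have : (Finset.range n).filter (fun l => lab n l = lab n k) = Finset.Ico a b := by
      ext l
      simp only [Finset.mem_filter, Finset.mem_range, Finset.mem_Ico]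
      exact ⟨fun ⟨h1, h2⟩ => (h l h1).1 h2,
        fun h1 => ⟨by omega, (h l (by omega)).2 h1⟩⟩
    show ((Finset.range n).filter fun l => lab n l = lab n k).card = _
    rw [this, Nat.card_Ico]
  push Not at hb
  have hne : ¬ (n = 5 ∨ n = 7) := by tauto
  by_cases h3 : k < 3
  · have hk' : lab n k = 0 := by simp [lab, hne, h3]
    have hm : m = 3 := key 0 3 (by omega) fun l hl => by
      rw [hk']; simp only [lab, hne, if_false]
      split_ifs <;> simp <;> omega
    exact ⟨hm ▸ by decide, hm.ge, fun h => absurd h hne, fun _ _ => hm⟩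
  by_cases ho : Odd n
  · obtain ⟨c, hc⟩ := ho
    have ho : Odd n := ⟨c, hc⟩
    by_cases h6 : k < 6
    · have hk' : lab n k = 1 := by simp [lab, hne, h3, ho, h6]
      have hm : m = 3 := key 3 6 (by omega) fun l hl => by
        rw [hk']; simp only [lab, hne, if_false, ho, true_and]
        split_ifs <;> simp <;> omega
      exact ⟨hm ▸ by decide, hm.ge, fun h => absurd h hne, fun _ _ => hm⟩
    · have hk' : lab n k = 2 := by simp [lab, hne, h3, h6]
      have hm : m = n - 6 := key 6 n le_rfl fun l hl => by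
        rw [hk']; simp only [lab, hne, if_false, ho, true_and]
        split_ifs <;> simp <;> omega
      exact ⟨⟨c - 3, by omega⟩, by omega, fun h => absurd h hne, fun _ h => absurd hk' h⟩
  · have hk' : lab n k = 2 := by simp [lab, hne, h3, ho]
    obtain ⟨c, hc⟩ := Nat.not_odd_iff_even.1 ho
    have hm : m = n - 3 := key 3 n le_rfl fun l hl => by
      rw [hk']; simp only [lab, hne, if_false, ho, false_and]
      split_ifs <;> simp <;> omega
    exact ⟨⟨c - 2, by omega⟩, by omega, fun h => absurd h hne, fun _ h => absurd hk' h⟩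

variable {Ω : Type*} [Fintype Ω] [DecidableEq Ω] {ι : Type*} [Finite ι]

/-- At the prime two: a group preserving blocks of size at least five and containing every even
permutation of each block. -/
theorem alternating_blocks (G : Subgroup (Perm Ω)) (β : Ω → ι)
    (hblk : ∀ g ∈ G, ∀ x y, β x = β y → β (g x) = β (g y))
    (halt : ∀ i, ∀ σ : Perm Ω, Perm.sign σ = 1 → (∀ x, β x ≠ i → σ x = x) → σ ∈ G)
    (hsize : ∀ x, 5 ≤ Nat.card {z // β z = β x}) (r : ℕ) (hr : r = 5 ∨ r = 7)
    (hsmall : ∀ x, Nat.card {z // β z = β x} = 5 ∨ Nat.card {z // β z = β x} = 7 →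
      Nat.card {z // β z = β x} = r) :
    ¬ Acyclic (ZMod r) (Ap 2 G) ∧
      ((∀ x, Nat.card {z // β z = β x} ≠ 5 ∧ Nat.card {z // β z = β x} ≠ 7) →
        ¬ Acyclic ℚ (Ap 2 G)) := by
  classical
  have : Fact r.Prime := ⟨by rcases hr with rfl | rfl <;> norm_num⟩
  have : Fact (Nat.Prime 3) := ⟨Nat.prime_three⟩
  have := Fintype.ofFinite ι
  let nb : ι → ℕ := fun i => Nat.card {z // β z = i}
  let ei : ∀ i, {z // β z = i} ≃ Fin (nb i) := fun i => Finite.equivFin _
  let pos : ι → Ω → ℕ := fun i z => if h : β z = i then (ei i ⟨z, h⟩ : ℕ) else 0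
  let π : Ω → ι × Fin 3 := fun z => (β z, lab (nb (β z)) (pos (β z) z))
  have hcount : ∀ i j, Nat.card {z // π z = (i, j)} =
      ((Finset.range (nb i)).filter fun l => lab (nb i) l = j).card := by
    intro i j
    rw [← Nat.card_eq_finsetCard]
    refine Nat.card_congr ?_
    exact
      { toFun := fun z => ⟨pos i z.1, by
          have hz : β z.1 = i := congrArg Prod.fst z.2
          have hl : lab (nb (β z.1)) (pos (β z.1) z.1) = j := congrArg Prod.snd z.2
          rw [hz] at hl
          refine Finset.mem_filter.2 ⟨Finset.mem_range.2 ?_, hl⟩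
          simp only [pos, dif_pos hz]
          exact Fin.is_lt _⟩
        invFun := fun l => ⟨((ei i).symm ⟨l.1, Finset.mem_range.1 (Finset.mem_filter.1 l.2).1⟩).1, by
          have h1 := ((ei i).symm ⟨l.1, Finset.mem_range.1 (Finset.mem_filter.1 l.2).1⟩).2
          simp only [π, h1, Prod.mk.injEq, true_and]
          simp only [pos, dif_pos h1, Subtype.coe_eta, Equiv.apply_symm_apply]
          exact (Finset.mem_filter.1 l.2).2⟩
        left_inv := fun z => Subtype.ext (by
          have hz : β z.1 = i := congrArg Prod.fst z.2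
          simp [pos, dif_pos hz])
        right_inv := fun l => Subtype.ext (by
          have h1 := ((ei i).symm ⟨l.1, Finset.mem_range.1 (Finset.mem_filter.1 l.2).1⟩).2
          simp [pos, dif_pos h1]) }
  have hpart : ∀ x, Odd (Nat.card {z // π z = π x}) ∧ 3 ≤ Nat.card {z // π z = π x} ∧
      ((nb (β x) = 5 ∨ nb (β x) = 7) → Nat.card {z // π z = π x} = nb (β x)) ∧
      (¬ (nb (β x) = 5 ∨ nb (β x) = 7) → (π x).2 ≠ 2 → Nat.card {z // π z = π x} = 3) := by
    intro x
    rw [show π x = (β x, lab (nb (β x)) (pos (β x) x)) from rfl, hcount]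
    refine lab_card (hsize x) ?_
    simp only [pos, dif_pos]
    exact Fin.is_lt _
  let c : ι × Fin 3 → Perm Ω := fun q =>
    if h : Odd (Nat.card {z // π z = q}) then (exists_cycle _ h).choose else 1
  have hc1 : ∀ q, Perm.sign (c q) = 1 := fun q => by
    simp only [c]; split_ifs with h
    · exact (exists_cycle _ h).choose_spec.1
    · exact map_one _
  have hc2 : ∀ q, c q ^ Nat.card {z // π z = q} = 1 := fun q => by
    simp only [c]; split_ifs with h
    · exact (exists_cycle _ h).choose_spec.2.1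
    · exact one_pow _
  have hc3 : ∀ q z, π z ≠ q → c q z = z := fun q z hz => by
    simp only [c]; split_ifs with h
    · exact (exists_cycle _ h).choose_spec.2.2.1 z hz
    · rfl
  have hc4 : ∀ x w, π w = π x → ∃ k : ℕ, (c (π x) ^ k) x = w := fun x w hw => by
    simp only [c, dif_pos (hpart x).1]
    exact (exists_cycle _ (hpart x).1).choose_spec.2.2.2 x w rfl hw
  have hcG : ∀ q, c q ∈ G := fun q => halt q.1 _ (hc1 q) fun z hz =>
    hc3 q z fun h => hz (congrArg Prod.fst h)
  let cg : ι × Fin 3 → G := fun q => ⟨c q, hcG q⟩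
  let L : ι × Fin 3 → Subgroup G := fun q =>
    { carrier := {g | ∀ z, π z ≠ q → (g : Perm Ω) z = z}
      one_mem' := fun z _ => rfl
      mul_mem' := fun {a b} ha hb z hz => by
        rw [Subgroup.coe_mul, Perm.mul_apply, hb z hz, ha z hz]
      inv_mem' := fun {a} ha z hz => by
        rw [InvMemClass.coe_inv, Perm.inv_eq_iff_eq]; exact (ha z hz).symm }
  let R : ι × Fin 3 → Subgroup G := fun q => Subgroup.zpowers (cg q)
  have hRL : ∀ q, R q ≤ L q := fun q => Subgroup.zpowers_le.2 fun z hz => hc3 q z hz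
  have hdisj : ∀ q q', q ≠ q' → ∀ a ∈ L q, ∀ b ∈ L q', a * b = b * a := fun q q' hqq a ha b hb =>
    Subtype.ext (Perm.Disjoint.commute fun w => by
      by_cases h : π w = q
      · exact Or.inr (hb w (h ▸ hqq))
      · exact Or.inl (ha w h)).eq
  let big : ι → Prop := fun i => nb i = 5 ∨ nb i = 7
  let JA : Finset (ι × Fin 3) := Finset.univ.filter fun q => big q.1
  let JB : Finset (ι × Fin 3) := Finset.univ.filter fun q => ¬ big q.1 ∧ q.2 ≠ 2
  let JC : Finset (ι × Fin 3) := Finset.univ.filter fun q => ¬ big q.1 ∧ q.2 = 2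
  have hJAB : Disjoint JA JB := Finset.disjoint_filter.2 fun q _ h h' => h'.1 h
  have hJAC : Disjoint JA JC := Finset.disjoint_filter.2 fun q _ h h' => h'.1 h
  have hJBC : Disjoint JB JC := Finset.disjoint_filter.2 fun q _ h h' => h.2 h'.2
  have hpg : ∀ (t : ℕ) q, (∀ x, π x = q → Nat.card {z // π z = q} = t) → IsPGroup t (R q) := by
    intro t q hq
    have h1 : cg q ^ t = 1 := Subtype.ext (by
      show c q ^ t = 1
      by_cases h : Odd (Nat.card {z // π z = q})
      · obtain ⟨⟨x, hx⟩⟩ : Nonempty {z // π z = q} := by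
          by_contra hne
          have := not_nonempty_iff.1 hne
          simp at h
        rw [← hq x hx]; exact hc2 q
      · simp only [c, dif_neg h, one_pow])
    rintro ⟨a, ha⟩
    obtain ⟨k, rfl⟩ := Subgroup.mem_zpowers_iff.1 ha
    refine ⟨1, Subtype.ext ?_⟩
    show (cg q ^ k) ^ (t ^ 1) = 1
    rw [pow_one, ← zpow_natCast (cg q ^ k) t, ← zpow_mul, mul_comm, zpow_mul, zpow_natCast, h1,
      one_zpow]
  let U₁ : Subgroup G := ⨆ q ∈ JA, R q
  let U₂ : Subgroup G := ⨆ q ∈ JB, R q
  have h₁ : IsPGroup r U₁ := isPGroup_sup L R hdisj hRL JA fun q hq => hpg r q fun x hx => by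
    have hb : big (β x) := by
      have := (Finset.mem_filter.1 hq).2
      rwa [← hx] at this
    rw [← hx, (hpart x).2.2.1 hb]
    exact hsmall x hb
  have h₂ : IsPGroup 3 U₂ := isPGroup_sup L R hdisj hRL JB fun q hq => hpg 3 q fun x hx => by
    obtain ⟨hb, hj⟩ := (Finset.mem_filter.1 hq).2
    rw [← hx] at hb hj ⊢
    exact (hpart x).2.2.2 hb hj
  obtain ⟨y, hyL, hyc⟩ : ∃ y : G, y ∈ (⨆ q ∈ JC, L q : Subgroup G) ∧
      ∀ z, (y : Perm Ω) z = if π z ∈ JC then c (π z) z else z := by
    suffices ∀ J : Finset (ι × Fin 3), ∃ y : G, y ∈ (⨆ q ∈ J, L q : Subgroup G) ∧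
        ∀ z, (y : Perm Ω) z = if π z ∈ J then c (π z) z else z from this JC
    intro J
    induction J using Finset.induction_on with
    | empty => exact ⟨1, one_mem _, fun z => by simp⟩
    | @insert a J ha ih =>
      obtain ⟨y, hy, hyc⟩ := ih
      refine ⟨cg a * y, ?_, fun z => ?_⟩
      · rw [Finset.iSup_insert]
        exact mul_mem (Subgroup.mem_sup_left fun w hw => hc3 a w hw) (Subgroup.mem_sup_right hy)
      · rw [Subgroup.coe_mul, Perm.mul_apply, hyc z]
        by_cases hzJ : π z ∈ J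
        · rw [if_pos hzJ, if_pos (Finset.mem_insert_of_mem hzJ)]
          refine hc3 a _ fun h => ha ?_
          have h5 : π (c (π z) z) = π z := by
            by_contra hne
            exact hne (congrArg π ((c (π z)).injective (hc3 _ _ hne)))
          rw [← h, h5]; exact hzJ
        · rw [if_neg hzJ]
          by_cases hza : π z = a
          · rw [if_pos (hza ▸ Finset.mem_insert_self a J), hza]
          · rw [if_neg fun h => (Finset.mem_insert.1 h).elim hza hzJ]
            exact hc3 a z hza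
  have hcent : ∀ (J K : Finset (ι × Fin 3)), Disjoint J K → ∀ a ∈ (⨆ q ∈ J, L q : Subgroup G),
      ∀ b ∈ (⨆ q ∈ K, L q : Subgroup G), a * b = b * a := by
    intro J K hJK a ha b hb
    have hle : (⨆ q ∈ J, L q : Subgroup G) ≤
        Subgroup.centralizer ((⨆ q ∈ K, L q : Subgroup G) : Set G) := iSup₂_le fun q hq => by
      refine Subgroup.le_centralizer_iff.1 (iSup₂_le fun q' hq' w hw => ?_)
      refine Subgroup.mem_centralizer_iff.2 fun v hv => ?_
      exact hdisj q q' (fun e => (Finset.disjoint_left.1 hJK hq) (e ▸ hq')) v hv w hw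
    exact (Subgroup.mem_centralizer_iff.1 (hle ha) b hb).symm
  have hRL' : ∀ J : Finset (ι × Fin 3), (⨆ q ∈ J, R q : Subgroup G) ≤ ⨆ q ∈ J, L q := fun J =>
    iSup₂_mono fun q _ => hRL q
  have key := three_stages (r := r) (s := 3) (Ap 2 G) (fun a E => ap_invariant 2 a E) U₁ y U₂ h₁ h₂
    (fun b hb => (hcent JA JC hJAC b (hRL' JA hb) y hyL).symm)
    (fun a ha b hb => (hcent JA JB hJAB b (hRL' JA hb) a (hRL' JB ha)).symm)
    (fun a ha => hcent JB JC hJBC a (hRL' JB ha) y hyL) ?_
  · refine ⟨key.1, fun hno => key.2 (eq_bot_iff.2 (iSup₂_le fun q hq => ?_))⟩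
    refine Subgroup.zpowers_le.2 (Subgroup.mem_bot.2 (Subtype.ext (Equiv.ext fun z => ?_)))
    refine hc3 q z fun hz => ?_
    have hb : big q.1 := (Finset.mem_filter.1 hq).2
    rw [← hz] at hb
    exact hb.elim (hno z).1 (hno z).2
  -- no elementary abelian 2-subgroup is fixed by all three
  intro E hE h1 hyE h2
  let K : Subgroup G :=
    { carrier := {g | ∀ z, β ((g : Perm Ω) z) = β z}
      one_mem' := fun z => rfl
      mul_mem' := fun {a b} ha hb z => by rw [Subgroup.coe_mul, Perm.mul_apply, ha, hb]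
      inv_mem' := fun {a} ha z => by
        have h := ha ((a⁻¹ : G).1 z)
        rw [← Perm.mul_apply, InvMemClass.coe_inv, mul_inv_cancel, Perm.one_apply] at h
        exact h.symm }
  have hLK : ∀ q, L q ≤ K := fun q g hg z => by
    by_cases hz : π z = q
    · by_contra hne
      refine hne (congrArg β ((g : Perm Ω).injective (hg _ fun h => hne ?_)))
      exact congrArg Prod.fst (h.trans hz.symm)
    · rw [hg z hz]
  have hconj : ∀ g ∈ stab E, ∀ e ∈ E, g * e * g⁻¹ ∈ E := fun g hg e he => by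
    rw [← show cj g E = E from hg, mem_cj]
    simpa [mul_assoc] using he
  have hmemA : ∀ q, big q.1 → cg q ∈ stab E := fun q hq => h1 <|
    le_iSup₂ (f := fun q (_ : q ∈ JA) => R q) q (Finset.mem_filter.2 ⟨Finset.mem_univ _, hq⟩)
      (Subgroup.mem_zpowers _)
  have hmemB : ∀ q, ¬ big q.1 → q.2 ≠ 2 → cg q ∈ stab E := fun q hq hq' => h2 <|
    le_iSup₂ (f := fun q (_ : q ∈ JB) => R q) q (Finset.mem_filter.2 ⟨Finset.mem_univ _, hq, hq'⟩)
      (Subgroup.mem_zpowers _)
  have hcK : ∀ q, cg q ∈ K := fun q => hLK q fun z hz => hc3 q z hz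
  have hyK : y ∈ K := (iSup₂_le fun q _ => hLK q : (⨆ q ∈ JC, L q : Subgroup G) ≤ K) hyL
  -- the subgroup fixing all blocks is trivial
  have hEK : ∀ e ∈ E, e ∈ K → e = 1 := by
    intro e he heK
    let F : Subgroup (Perm Ω) := (E ⊓ K).map G.subtype
    have : Fact (Nat.Prime 2) := ⟨Nat.prime_two⟩
    refine Subtype.ext (Equiv.ext fun w => ?_)
    refine parts_fix (p := 2) {z | β z = β w} π F ?_ ?_ ?_ ?_ ?_ ?_ e ⟨e, ⟨he, heK⟩, rfl⟩ w rfl
    · have : IsPGroup 2 (E ⊓ K : Subgroup G) := fun a =>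
        ⟨1, Subtype.ext (by simpa using hE.2.2 a a.2.1)⟩
      exact this.map _
    · rintro _ ⟨a, ha, rfl⟩ _ ⟨b, hb, rfl⟩
      exact congrArg G.subtype (hE.2.1 a ha.1 b hb.1)
    · rintro _ ⟨a, ha, rfl⟩ x (hx : β x = β w)
      exact (ha.2 x).trans hx
    iterate 2
      intro x (hx : β x = β w)
      rw [Nat.card_congr (Equiv.subtypeEquivRight fun z => show (z ∈ {z | β z = β w} ∧ π z = π x) ↔ π z = π x
        from ⟨fun h => h.2, fun h => ⟨(congrArg Prod.fst h).trans hx, h⟩⟩)]
      first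
        | exact fun h => (Nat.not_even_iff_odd.2 (hpart x).1) (even_iff_two_dvd.2 h)
        | exact le_trans (by norm_num) (hpart x).2.1
    intro x (hx : β x = β w) v (hv : β v = β w) hvx
    obtain ⟨k, hk⟩ := hc4 x v hvx
    obtain ⟨h0, h0E, h0K, h0c, h0f⟩ : ∃ h0 : G, h0 ∈ stab E ∧ h0 ∈ K ∧
        (∀ z, π z = π x → (h0 : Perm Ω) z = c (π x) z) ∧
        ∀ z, β z = β x → π z ≠ π x → (h0 : Perm Ω) z = z := by
      by_cases hA : big (β x)
      · exact ⟨cg (π x), hmemA _ hA, hcK _, fun z _ => rfl, fun z _ hz => hc3 _ z hz⟩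
      by_cases hB : (π x).2 = 2
      · refine ⟨y, hyE, hyK, fun z hz => ?_, fun z hz hz' => ?_⟩
        · rw [hyc, if_pos (by rw [hz]; exact Finset.mem_filter.2 ⟨Finset.mem_univ _, hA, hB⟩), hz]
        · rw [hyc, if_neg fun h => hz' (Prod.ext hz ((Finset.mem_filter.1 h).2.2.trans hB.symm))]
      · exact ⟨cg (π x), hmemB _ hA hB, hcK _, fun z _ => rfl, fun z _ hz => hc3 _ z hz⟩
    have hpow : ∀ n : ℕ, ∀ z, β z = β x →
        (π z = π x → ((h0 ^ n : G) : Perm Ω) z = (c (π x) ^ n) z ∧
          π ((c (π x) ^ n) z) = π x) ∧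
        (π z ≠ π x → ((h0 ^ n : G) : Perm Ω) z = z) := by
      intro n
      induction n with
      | zero => intro z _; exact ⟨fun h => ⟨rfl, h⟩, fun _ => rfl⟩
      | succ n ih =>
        intro z hz
        refine ⟨fun h => ?_, fun h => ?_⟩
        · obtain ⟨h3, h4⟩ := (ih z hz).1 h
          rw [pow_succ', pow_succ', Subgroup.coe_mul, Perm.mul_apply, Perm.mul_apply, h3,
            h0c _ h4]
          refine ⟨rfl, ?_⟩
          by_contra hne
          exact hne (((c (π x)).injective (hc3 _ _ hne)).symm ▸ h4)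
        · rw [pow_succ', Subgroup.coe_mul, Perm.mul_apply, (ih z hz).2 h, h0f z hz h]
    refine ⟨(h0 ^ k : G), ((hpow k x rfl).1 rfl).1.trans hk, ?_, fun z hz hzx =>
      (hpow k z (Eq.trans hz hx.symm)).2 hzx⟩
    rintro _ ⟨a, ha, rfl⟩
    exact ⟨h0 ^ k * a * (h0 ^ k)⁻¹, ⟨hconj _ (pow_mem h0E k) a ha.1,
      K.mul_mem (K.mul_mem (K.pow_mem h0K k) ha.2) (K.inv_mem (K.pow_mem h0K k))⟩, rfl⟩
  -- every member commutes with the cycles, so keeps every block
  refine hE.1 (eq_bot_iff.2 fun e he => Subgroup.mem_bot.2 (hEK e he fun w => ?_))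
  have hcomm : ∀ h ∈ stab E, h ∈ K → h * e = e * h := by
    intro h hh hhK
    have h5 : h * e * h⁻¹ * e⁻¹ = 1 := hEK _ (mul_mem (hconj h hh e he) (inv_mem he)) fun z => by
      simp only [Subgroup.coe_mul, Perm.mul_apply]
      rw [hhK _]
      have h6 := hblk _ e.2 _ _ ((K.inv_mem hhK : h⁻¹ ∈ K) ((e⁻¹ : G).1 z))
      rw [h6, ← Perm.mul_apply, InvMemClass.coe_inv, mul_inv_cancel, Perm.one_apply]
    rwa [mul_inv_eq_one, mul_inv_eq_iff_eq_mul] at h5
  have hpos : 0 < nb (β w) := lt_of_lt_of_le (by norm_num) (hsize w)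
  set x : Ω := ((ei (β w)).symm ⟨0, hpos⟩).1 with hx
  have hxw : β x = β w := ((ei (β w)).symm ⟨0, hpos⟩).2
  have hx2 : (π x).2 ≠ 2 := by
    show lab (nb (β x)) (pos (β x) x) ≠ 2
    rw [hxw]
    simp only [pos, dif_pos hxw]
    simp [lab, hx]
  obtain ⟨v, hv, hvx⟩ : ∃ v, π v = π x ∧ v ≠ x := by
    by_contra hall
    push Not at hall
    have hss : Subsingleton {z // π z = π x} :=
      ⟨fun a b => Subtype.ext ((hall a a.2).trans (hall b b.2).symm)⟩
    have := Finite.card_le_one_iff_subsingleton.2 hss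
    have := (hpart x).2.1
    omega
  have hmove : c (π x) x ≠ x := fun hfix => by
    obtain ⟨k, hk⟩ := hc4 x v hv
    exact hvx (hk.symm.trans (Perm.pow_apply_eq_self_of_apply_eq_self hfix k))
  have hst : cg (π x) ∈ stab E := by
    by_cases hA : big (β x)
    · exact hmemA _ hA
    · exact hmemB _ hA hx2
  have hex : c (π x) ((e : Perm Ω) x) = (e : Perm Ω) (c (π x) x) :=
    congrArg (fun g : G => (g : Perm Ω) x) (hcomm _ hst (hcK _))
  have hkeep : π ((e : Perm Ω) x) = π x := by
    by_contra hne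
    exact hmove ((e : Perm Ω).injective ((hex.symm.trans (hc3 _ _ hne))))
  exact (hblk _ e.2 _ _ hxw.symm).trans ((congrArg Prod.fst hkeep).trans hxw)

end Vale.Agent.P240
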