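import Vale.Agent.P240.Stages

/-!
# P240: permutation groups with a mover on every block
-/

namespace Vale.Agent.P240

open Equiv

variable {Ω : Type*} [Finite Ω] {ι : Type*} [Finite ι] {p : ℕ}

/-- A nontrivial subgroup moving one block only, transitive on it and of degree prime to `p`, or
fixing one point of it and transitive on the others, their number prime to `p` and the block size
no power of `p`. -/
def BlockMover (p : ℕ) (β : Ω → ι) (i : ι) (Q : Subgroup (Perm Ω)) : Prop :=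
  (∃ g ∈ Q, g ≠ 1) ∧ (∀ g ∈ Q, ∀ x, β x ≠ i → g x = x) ∧
    ((¬ p ∣ Nat.card {x // β x = i} ∧ ∀ x y, β x = i → β y = i → ∃ g ∈ Q, g x = y) ∨
      ∃ z, β z = i ∧ (∀ g ∈ Q, g z = z) ∧
        (∀ x y, β x = i → β y = i → x ≠ z → y ≠ z → ∃ g ∈ Q, g x = y) ∧
        ¬ p ∣ Nat.card {x // β x = i} - 1 ∧ ∀ m : ℕ, Nat.card {x // β x = i} ≠ p ^ m)

/-- A p-subgroup preserving a block and normalised by a mover fixes the block pointwise. -/
theorem mover_fixes [Fact p.Prime] (β : Ω → ι) (i : ι) (Q : Subgroup (Perm Ω))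
    (hQ : BlockMover p β i Q) (E : Subgroup (Perm Ω)) (hE : IsPGroup p E)
    (hpres : ∀ e ∈ E, ∀ x, β x = i → β (e x) = i)
    (hnorm : ∀ x, β x = i → ∀ g ∈ Q, ∀ e ∈ E, ∃ e' ∈ E, e (g x) = g (e' x)) :
    ∀ e ∈ E, ∀ x, β x = i → e x = x := by
  classical
  let _ : MulAction E {x // β x = i} :=
    { smul := fun e x => ⟨(e : Perm Ω) x.1, hpres e e.2 x.1 x.2⟩
      one_smul := fun x => Subtype.ext rfl
      mul_smul := fun e e' x => Subtype.ext rfl }
  have hmove : ∀ x, β x = i → (∀ e ∈ E, e x = x) → ∀ g ∈ Q, ∀ e ∈ E, e (g x) = g x := by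
    intro x hx hfx g hg e he
    obtain ⟨e', he', h⟩ := hnorm x hx g hg e he
    rw [h, hfx e' he']
  rcases hQ.2.2 with ⟨hndvd, htr⟩ | ⟨z, hz, hQz, htr, hndvd, hpow⟩
  · obtain ⟨⟨a, ha⟩, hfix⟩ := hE.nonempty_fixed_point_of_prime_not_dvd_card {x // β x = i} hndvd
    intro e he x hx
    obtain ⟨g, hg, rfl⟩ := htr a x ha hx
    exact hmove a ha (fun e he => congrArg Subtype.val (hfix ⟨e, he⟩)) g hg e he
  · by_cases hzf : ∀ e ∈ E, e z = z
    · let _ : MulAction E {x // β x = i ∧ x ≠ z} :=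
        { smul := fun e x => ⟨(e : Perm Ω) x.1, hpres e e.2 x.1 x.2.1, fun h => x.2.2
            ((e : Perm Ω).injective (h.trans (hzf e e.2).symm))⟩
          one_smul := fun x => Subtype.ext rfl
          mul_smul := fun e e' x => Subtype.ext rfl }
      have := Fintype.ofFinite Ω
      have hn : ¬ p ∣ Nat.card {x // β x = i ∧ x ≠ z} := by
        rw [Nat.card_eq_fintype_card, Fintype.card_subtype,
          show Finset.univ.filter (fun x => β x = i ∧ x ≠ z) =
            (Finset.univ.filter fun x => β x = i).erase z by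
            ext x; simp [and_comm], Finset.card_erase_of_mem (by simpa using hz),
          ← Fintype.card_subtype, ← Nat.card_eq_fintype_card]
        exact hndvd
      obtain ⟨⟨a, ha, haz⟩, hfix⟩ := hE.nonempty_fixed_point_of_prime_not_dvd_card _ hn
      intro e he x hx
      rcases eq_or_ne x z with rfl | hxz
      · exact hzf e he
      obtain ⟨g, hg, rfl⟩ := htr a x ha hx haz hxz
      exact hmove a ha (fun e he => congrArg Subtype.val (hfix ⟨e, he⟩)) g hg e he
    · exfalso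
      push Not at hzf
      obtain ⟨e₀, he₀, hne⟩ := hzf
      have hsurj : MulAction.orbit E (⟨z, hz⟩ : {x // β x = i}) = Set.univ := by
        refine Set.eq_univ_of_forall fun ⟨x, hx⟩ => ?_
        rcases eq_or_ne x z with rfl | hxz
        · exact MulAction.mem_orbit_self _
        obtain ⟨g, hg, hgx⟩ := htr (e₀ z) x (hpres e₀ he₀ z hz) hx hne hxz
        obtain ⟨e', he', h⟩ := hnorm (e₀ z) (hpres e₀ he₀ z hz) g⁻¹ (inv_mem hg) e₀⁻¹ (inv_mem he₀)
        obtain ⟨e'', he'', h''⟩ := hnorm z hz g⁻¹ (inv_mem hg) e₀ he₀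
        -- e₀ fixes nothing new: the orbit of z is invariant under the mover
        obtain ⟨e₁, he₁, h₁⟩ : ∃ e₁ ∈ E, g (e₀ z) = e₁ (g z) := by
          have hgz : g⁻¹ z = z := hQz _ (inv_mem hg)
          rw [hgz] at h''
          refine ⟨(e'')⁻¹⁻¹, by simpa using he'', ?_⟩
          rw [inv_inv, hQz g hg, h'', Perm.inv_def, Equiv.apply_symm_apply]
        refine ⟨⟨e₁, he₁⟩, Subtype.ext ?_⟩
        show e₁ z = x
        rw [← hgx, h₁, hQz g hg]
      obtain ⟨m, hm⟩ := hE.card_orbit (⟨z, hz⟩ : {x // β x = i})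
      rw [hsurj, Nat.card_univ] at hm
      exact hpow m hm

/-- Groups with movers on all blocks, using two auxiliary primes and one cyclic group. -/
theorem blocks [Fact p.Prime] {r s : ℕ} [Fact r.Prime] [Fact s.Prime] (hrp : r ≠ p) (hsp : s ≠ p)
    (G : Subgroup (Perm Ω)) (β : Ω → ι)
    (hblk : ∀ g ∈ G, ∀ x y, β x = β y → β (g x) = β (g y))
    (hmov : ∀ i, (∃ Q ≤ G, BlockMover p β i Q ∧ (IsPGroup r Q ∨ IsPGroup s Q)) ∨
      ((∀ g ∈ G, g ^ p = 1 → ∀ x, β x = i → β (g x) = i) ∧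
        ∃ c ∈ G, BlockMover p β i (Subgroup.zpowers c))) :
    ¬ Acyclic (ZMod r) (Ap p G) ∧
      ((∀ i, (∃ Q ≤ G, BlockMover p β i Q ∧ IsPGroup s Q) ∨
        ((∀ g ∈ G, g ^ p = 1 → ∀ x, β x = i → β (g x) = i) ∧
          ∃ c ∈ G, BlockMover p β i (Subgroup.zpowers c))) → ¬ Acyclic ℚ (Ap p G)) := by
  classical
  have := Fintype.ofFinite ι
  have := Fintype.ofFinite Ω
  suffices main : ∀ (P : ι → Prop),
      (∀ i, (∃ Q ≤ G, BlockMover p β i Q ∧ ((P i ∧ IsPGroup r Q) ∨ IsPGroup s Q)) ∨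
        ((∀ g ∈ G, g ^ p = 1 → ∀ x, β x = i → β (g x) = i) ∧
          ∃ c ∈ G, BlockMover p β i (Subgroup.zpowers c))) →
      ¬ Acyclic (ZMod r) (Ap p G) ∧ ((∀ i, ¬ P i) → ¬ Acyclic ℚ (Ap p G)) by
    refine ⟨(main (fun _ => True) fun i => ?_).1, fun h =>
      (main (fun _ => False) fun i => ?_).2 fun _ h => h⟩
    · exact (hmov i).imp_left fun ⟨Q, h1, h2, h3⟩ => ⟨Q, h1, h2, h3.imp_left fun h => ⟨trivial, h⟩⟩
    · exact (h i).imp_left fun ⟨Q, h1, h2, h3⟩ => ⟨Q, h1, h2, Or.inr h3⟩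
  intro P hP
  let A : ι → Prop := fun i => ∃ Q ≤ G, BlockMover p β i Q ∧ P i ∧ IsPGroup r Q
  let B : ι → Prop := fun i => ¬ A i ∧ ∃ Q ≤ G, BlockMover p β i Q ∧ IsPGroup s Q
  have hC : ∀ i, ¬ A i → ¬ B i → (∀ g ∈ G, g ^ p = 1 → ∀ x, β x = i → β (g x) = i) ∧
      ∃ c ∈ G, BlockMover p β i (Subgroup.zpowers c) := by
    intro i hA hB
    rcases hP i with ⟨Q, h1, h2, h3 | h3⟩ | h
    · exact absurd ⟨Q, h1, h2, h3⟩ hA
    · exact absurd ⟨hA, Q, h1, h2, h3⟩ hB
    · exact h
  let U : ι → Subgroup G := fun i =>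
    if h : A i then h.choose.subgroupOf G else if h' : B i then h'.2.choose.subgroupOf G else ⊥
  let c : ι → Perm Ω := fun i => if h : ¬ A i ∧ ¬ B i then (hC i h.1 h.2).2.choose else 1
  have hcG : ∀ i, c i ∈ G := fun i => by
    simp only [c]; split_ifs with h
    · exact (hC i h.1 h.2).2.choose_spec.1
    · exact one_mem G
  let L : ι → Subgroup G := fun i =>
    { carrier := {g | ∀ x, β x ≠ i → (g : Perm Ω) x = x}
      one_mem' := fun x _ => rfl
      mul_mem' := fun {a b} ha hb x hx => by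
        rw [Subgroup.coe_mul, Perm.mul_apply, hb x hx, ha x hx]
      inv_mem' := fun {a} ha x hx => by
        rw [InvMemClass.coe_inv, Perm.inv_eq_iff_eq]; exact (ha x hx).symm }
  have hdisj : ∀ i j, i ≠ j → ∀ x ∈ L i, ∀ y ∈ L j, x * y = y * x := fun i j hij x hx y hy =>
    Subtype.ext (Perm.Disjoint.commute fun w => by
      by_cases h : β w = i
      · exact Or.inr (hy w (h ▸ hij))
      · exact Or.inl (hx w h)).eq
  have hUL : ∀ i, U i ≤ L i := fun i g hg => by
    simp only [U] at hg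
    split_ifs at hg with h h'
    · exact h.choose_spec.2.1.2.1 _ hg
    · exact h'.2.choose_spec.2.1.2.1 _ hg
    · rw [Subgroup.mem_bot.1 hg]; exact fun x _ => rfl
  have hcs : ∀ i w, β w ≠ i → c i w = w := fun i w hw => by
    simp only [c]; split_ifs with h
    · exact (hC i h.1 h.2).2.choose_spec.2.2.1 _ (Subgroup.mem_zpowers _) w hw
    · rfl
  let cg : ι → G := fun i => ⟨c i, hcG i⟩
  have hy : ∀ J : Finset ι, ∃ y : G, y ∈ ⨆ i ∈ J, L i ∧
      ∀ i ∈ J, ∀ w, β w = i → (y : Perm Ω) w = c i w := by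
    intro J
    induction J using Finset.induction_on with
    | empty => exact ⟨1, one_mem _, fun i hi => absurd hi (Finset.notMem_empty i)⟩
    | @insert a J ha ih =>
      obtain ⟨y, hy, hyc⟩ := ih
      have hout : ∀ g ∈ ⨆ i ∈ J, L i, ∀ w, β w = a → (g : Perm Ω) w = w := by
        have : (⨆ i ∈ J, L i) ≤
            ({ carrier := {g : G | ∀ w, β w = a → (g : Perm Ω) w = w}
               one_mem' := fun w _ => rfl
               mul_mem' := fun {g g'} hg hg' w hw => by
                 rw [Subgroup.coe_mul, Perm.mul_apply, hg' w hw, hg w hw]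
               inv_mem' := fun {g} hg w hw => by
                 rw [InvMemClass.coe_inv, Perm.inv_eq_iff_eq]; exact (hg w hw).symm } : Subgroup G) :=
          iSup₂_le fun i hi g hg w hw => hg w (hw ▸ fun e => ha (e ▸ hi))
        exact fun g hg => this hg
      refine ⟨cg a * y, ?_, fun i hi w hw => ?_⟩
      · rw [Finset.iSup_insert]
        exact mul_mem (Subgroup.mem_sup_left fun w hw => hcs a w hw) (Subgroup.mem_sup_right hy)
      · rw [Subgroup.coe_mul, Perm.mul_apply]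
        rcases Finset.mem_insert.1 hi with rfl | hi'
        · rw [hout y hy w hw]
        · have hb : β (c i w) = i := by
            by_contra hne
            exact hne (((c i).injective (hcs i (c i w) hne)).symm ▸ hw)
          rw [hyc i hi' w hw]
          exact hcs a _ fun e => ha (by rw [← e, hb]; exact hi')
  let JA := Finset.univ.filter A
  let JB := Finset.univ.filter B
  let JC := Finset.univ.filter fun i => ¬ A i ∧ ¬ B i
  obtain ⟨y, hyL, hyc⟩ := hy JC
  let U₁ : Subgroup G := ⨆ i ∈ JA, U i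
  let U₂ : Subgroup G := ⨆ i ∈ JB, U i
  have h₁ : IsPGroup r U₁ := isPGroup_sup L U hdisj hUL JA fun i hi => by
    have hA := (Finset.mem_filter.1 hi).2
    rw [show U i = hA.choose.subgroupOf G from dif_pos hA]
    exact (hA.choose_spec.2.2.2).of_equiv (Subgroup.subgroupOfEquivOfLe hA.choose_spec.1).symm
  have h₂ : IsPGroup s U₂ := isPGroup_sup L U hdisj hUL JB fun i hi => by
    have hB := (Finset.mem_filter.1 hi).2
    rw [show U i = hB.2.choose.subgroupOf G from (dif_neg hB.1).trans (dif_pos hB)]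
    exact (hB.2.choose_spec.2.2).of_equiv (Subgroup.subgroupOfEquivOfLe hB.2.choose_spec.1).symm
  have hcent : ∀ (J K : Finset ι), Disjoint J K → ∀ a ∈ (⨆ i ∈ J, L i : Subgroup G),
      ∀ b ∈ (⨆ i ∈ K, L i : Subgroup G), a * b = b * a := by
    intro J K hJK a ha b hb
    have hle : (⨆ i ∈ J, L i : Subgroup G) ≤
        Subgroup.centralizer ((⨆ i ∈ K, L i : Subgroup G) : Set G) := iSup₂_le fun i hi => by
      refine Subgroup.le_centralizer_iff.1 (iSup₂_le fun j hj w hw => ?_)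
      refine Subgroup.mem_centralizer_iff.2 fun v hv => ?_
      exact hdisj i j (fun e => (Finset.disjoint_left.1 hJK hi) (e ▸ hj)) v hv w hw
    exact (Subgroup.mem_centralizer_iff.1 (hle ha) b hb).symm
  have hUL' : ∀ J : Finset ι, (⨆ i ∈ J, U i : Subgroup G) ≤ ⨆ i ∈ J, L i := fun J =>
    iSup₂_mono fun i _ => hUL i
  have hAB : Disjoint JA JB := Finset.disjoint_filter.2 fun i _ h h' => h'.1 h
  have hAC : Disjoint JA JC := Finset.disjoint_filter.2 fun i _ h h' => h'.1 h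
  have hBC : Disjoint JB JC := Finset.disjoint_filter.2 fun i _ h h' => h'.2 h
  have key := three_stages (r := r) (s := s) (Ap p G) (fun a E => ap_invariant p a E) U₁ y U₂ h₁ h₂
    (fun b hb => (hcent JA JC hAC b (hUL' JA hb) y hyL).symm)
    (fun a ha b hb => (hcent JA JB hAB b (hUL' JA hb) a (hUL' JB ha)).symm)
    (fun a ha => hcent JB JC hBC a (hUL' JB ha) y hyL) ?_
  · refine ⟨key.1, fun hno => key.2 ?_⟩
    have : JA = ∅ := Finset.filter_eq_empty_iff.2 fun i _ ⟨_, _, _, hp', _⟩ => hno i hp'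
    simp [U₁, this]
  -- no elementary abelian subgroup is fixed by all three
  intro E hE h1 hyE h2
  refine hE.1 (eq_bot_iff.2 fun x hx => Subgroup.mem_bot.2 (Subtype.ext (Equiv.ext fun w => ?_)))
  let E' : Subgroup (Perm Ω) := E.map G.subtype
  have hE' : IsPGroup p E' := by
    have : IsPGroup p E := fun e => ⟨1, Subtype.ext (by simpa using hE.2.2 e e.2)⟩
    exact this.map _
  have hconj : ∀ g ∈ stab E, ∀ e ∈ E, g⁻¹ * e * g ∈ E := fun g hg e he => by
    rw [← mem_cj, show cj g E = E from hg]; exact he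
  set i := β w with hi
  by_cases hA : A i ∨ B i
  · obtain ⟨Q, hQG, hQ, t, ht, htp, hQt, hQs⟩ : ∃ Q ≤ G, BlockMover p β i Q ∧
        ∃ t, t.Prime ∧ t ≠ p ∧ IsPGroup t Q ∧ Q.subgroupOf G ≤ stab E := by
      rcases hA with hA | hB
      · refine ⟨_, hA.choose_spec.1, hA.choose_spec.2.1, r, Fact.out, hrp, hA.choose_spec.2.2.2,
          le_trans ?_ h1⟩
        refine le_trans (le_of_eq ?_) (le_iSup₂ (f := fun i (_ : i ∈ JA) => U i) i
          (Finset.mem_filter.2 ⟨Finset.mem_univ _, hA⟩))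
        simp only [U, dif_pos hA]
      · refine ⟨_, hB.2.choose_spec.1, hB.2.choose_spec.2.1, s, Fact.out, hsp,
          hB.2.choose_spec.2.2, le_trans ?_ h2⟩
        refine le_trans (le_of_eq ?_) (le_iSup₂ (f := fun i (_ : i ∈ JB) => U i) i
          (Finset.mem_filter.2 ⟨Finset.mem_univ _, hB⟩))
        simp only [U, dif_neg hB.1, dif_pos hB]
    have hnorm : ∀ g ∈ Q, ∀ e ∈ E', g⁻¹ * e * g ∈ E' := by
      rintro g hg _ ⟨e, he, rfl⟩
      exact ⟨_, hconj ⟨g, hQG hg⟩ (hQs (show (⟨g, hQG hg⟩ : G) ∈ Q.subgroupOf G from hg)) e he,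
        rfl⟩
    have hkeep : ∀ e ∈ E', ∀ v, β v = i → β (e v) = i := by
      intro e he v hv
      by_contra hne
      obtain ⟨ρ, hρ, hρ1⟩ := hQ.1
      have hsub : ∀ u, β u = i → β (e u) = β (e v) := fun u hu => by
        obtain ⟨a, -, rfl⟩ := he
        exact hblk _ a.2 _ _ (hu.trans hv.symm)
      have hdis : Perm.Disjoint (e * ρ * e⁻¹) ρ⁻¹ := fun u => by
        by_cases hu : β u = i
        · refine Or.inl ?_
          rw [Perm.mul_apply, Perm.mul_apply, hQ.2.1 ρ hρ (e⁻¹ u) (fun h => hne ?_),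
            Perm.inv_def, Equiv.apply_symm_apply]
          have := hsub _ h
          rw [Perm.inv_def, Equiv.apply_symm_apply, hu] at this
          exact this.symm
        · exact Or.inr (hQ.2.1 _ (inv_mem hρ) u hu)
      have hcE : e * ρ * e⁻¹ * ρ⁻¹ ∈ E' := by
        have := mul_mem he (hnorm ρ⁻¹ (inv_mem hρ) e⁻¹ (inv_mem he))
        simpa [mul_assoc] using this
      obtain ⟨k, hk⟩ := hQt ⟨ρ, hρ⟩
      have hk' : ρ ^ t ^ k = 1 := congrArg Subtype.val hk
      have hc2 : (e * ρ * e⁻¹ * ρ⁻¹) ^ t ^ k = 1 := by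
        rw [(Perm.Disjoint.commute hdis).mul_pow, conj_pow, inv_pow, hk']; simp
      obtain ⟨m, hm⟩ := hE' ⟨_, hcE⟩
      have hcop : Nat.Coprime (p ^ m) (t ^ k) :=
        ((Nat.coprime_primes (Fact.out : p.Prime) ht).2 (Ne.symm htp)).pow m k
      have hone : e * ρ * e⁻¹ * ρ⁻¹ = 1 := by
        have h3 := Nat.dvd_gcd (orderOf_dvd_of_pow_eq_one (congrArg Subtype.val hm))
          (orderOf_dvd_of_pow_eq_one hc2)
        rw [hcop.gcd_eq_one] at h3
        exact orderOf_eq_one_iff.1 (Nat.dvd_one.1 h3)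
      rw [mul_inv_eq_one] at hone
      refine hρ1 (Equiv.ext fun u => ?_)
      rcases hdis u with h | h
      · rw [hone] at h; exact h
      · exact (Perm.inv_eq_iff_eq.1 h).symm
    refine mover_fixes β i Q hQ E' hE' hkeep (fun u _ g hg e he => ⟨_, hnorm g hg e he, ?_⟩) _
      ⟨x, hx, rfl⟩ w rfl
    rw [Perm.mul_apply, Perm.mul_apply, Perm.inv_def, Equiv.apply_symm_apply]
  · push Not at hA
    obtain ⟨hmid, hc⟩ := hC i hA.1 hA.2
    have hcQ : BlockMover p β i (Subgroup.zpowers (c i)) := by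
      simp only [c, dif_pos hA]
      exact hc.choose_spec.2
    have hyw : ∀ v, β v = i → (y : Perm Ω) v = c i v :=
      hyc i (Finset.mem_filter.2 ⟨Finset.mem_univ _, hA⟩)
    have hkeep : ∀ e ∈ E', ∀ v, β v = i → β (e v) = i := by
      rintro _ ⟨a, ha, rfl⟩ v hv
      exact hmid _ a.2 (by simpa using congrArg Subtype.val (hE.2.2 a ha)) v hv
    have hpw : ∀ n : ℕ, ∀ v, β v = i → ((y ^ n : G) : Perm Ω) v = ((c i) ^ n) v ∧
        β (((c i) ^ n) v) = i := by
      intro n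
      induction n with
      | zero => intro v hv; exact ⟨rfl, hv⟩
      | succ n ih =>
        intro v hv
        obtain ⟨h3, h4⟩ := ih v hv
        rw [pow_succ', pow_succ', Subgroup.coe_mul, Perm.mul_apply, Perm.mul_apply, h3, hyw _ h4]
        refine ⟨rfl, ?_⟩
        by_contra hne
        exact hne (((c i).injective (hcs i _ hne)).symm ▸ h4)
    refine mover_fixes β i _ hcQ E' hE' hkeep (fun u hu g hg e he => ?_) _ ⟨x, hx, rfl⟩ w rfl
    obtain ⟨n, rfl⟩ := (mem_powers_iff_mem_zpowers.2 hg)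
    obtain ⟨a, ha, rfl⟩ := he
    refine ⟨_, ⟨(y ^ n)⁻¹ * a * y ^ n, hconj _ (pow_mem hyE n) a ha, rfl⟩, ?_⟩
    have h3 : ∀ v, β v = i → ((y ^ n : G) : Perm Ω) v = ((c i) ^ n) v := fun v hv => (hpw n v hv).1
    show (a : Perm Ω) _ = _
    have h4 : β ((((y ^ n)⁻¹ * a * y ^ n : G) : Perm Ω) u) = i :=
      hkeep _ ⟨_, hconj _ (pow_mem hyE n) a ha, rfl⟩ u hu
    rw [show G.subtype ((y ^ n)⁻¹ * a * y ^ n) = (((y ^ n)⁻¹ * a * y ^ n : G) : Perm Ω) from rfl,
      ← h3 _ h4]
    simp only [Subgroup.coe_mul, InvMemClass.coe_inv, Perm.mul_apply, Perm.inv_def,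
      Equiv.apply_symm_apply, h3 u hu]

end Vale.Agent.P240
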