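import Vale.Agent.P240.Defs

/-!
# P240: the boundary squares to zero; acyclic complexes have vanishing Euler characteristic
-/

namespace Vale.Agent.P240

open Finset

variable {V : Type*} [PartialOrder V] [Finite V] {k : Type*} [Field k] {X : Set V}

open Classical in
theorem bd_apply (f : Finset V → k) (σ : Finset V) [hV : Fintype V] :
    bd k V f σ = ∑ x ∈ univ.filter (fun x => x ∉ σ),
      (-1 : k) ^ (σ.filter (fun y => y < x)).card * f (insert x σ) := by
  obtain rfl : hV = Fintype.ofFinite V := Subsingleton.elim _ _
  rfl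

theorem IsFlag.mono {σ τ : Finset V} (h : IsFlag X τ) (hs : σ ⊆ τ) : IsFlag X σ :=
  ⟨fun _ hx => h.1 (hs hx), h.2.mono (fun _ hx => hs hx)⟩

theorem isFlag_empty (X : Set V) : IsFlag X ∅ := by
  simp [IsFlag, IsChain]

theorem supp_bd {f : Finset V → k} (hf : Supp X f) : Supp X (bd k V f) := by
  classical
  have := Fintype.ofFinite V
  intro σ hσ
  rw [bd_apply]
  exact Finset.sum_eq_zero fun x _ => by
    rw [hf _ fun h => hσ (h.mono (Finset.subset_insert _ _)), mul_zero]

theorem bd_bd {f : Finset V → k} (hf : Supp X f) : bd k V (bd k V f) = 0 := by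
  classical
  have := Fintype.ofFinite V
  funext σ
  rw [bd_apply]
  simp only [bd_apply, Finset.mul_sum, Pi.zero_apply]
  rw [Finset.sum_sigma']
  refine Finset.sum_involution (fun q _ => ⟨q.2, q.1⟩) (fun q hq => ?_) (fun q hq _ h => ?_)
    (fun q hq => ?_) (fun q _ => rfl)
  · obtain ⟨x, y⟩ := q
    simp only [Finset.mem_sigma, Finset.mem_filter, Finset.mem_univ, true_and,
      Finset.mem_insert, not_or] at hq
    obtain ⟨hx, hyx, hy⟩ := hq
    dsimp only
    rw [Finset.insert_comm x y]
    by_cases hflag : IsFlag X (insert y (insert x σ))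
    · have hc : x ≤ y ∨ y ≤ x := hflag.2.total (by simp) (by simp)
      have key : ∀ a c : V, a < c → a ∉ σ →
          ((insert a σ).filter (fun z => z < c)).card = (σ.filter (fun z => z < c)).card + 1 ∧
          ((insert c σ).filter (fun z => z < a)).card = (σ.filter (fun z => z < a)).card := by
        intro a c hac ha
        rw [Finset.filter_insert, if_pos hac, Finset.card_insert_of_notMem (by simp [ha]),
          Finset.filter_insert, if_neg hac.not_gt]
        exact ⟨rfl, rfl⟩
      rcases hc with h | h
      · obtain ⟨e1, e2⟩ := key x y (lt_of_le_of_ne h (Ne.symm hyx)) hx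
        rw [e1, e2, pow_succ]
        ring
      · obtain ⟨e1, e2⟩ := key y x (lt_of_le_of_ne h hyx) hy
        rw [e1, e2, pow_succ]
        ring
    · rw [hf _ hflag]
      ring
  · simp only [Finset.mem_sigma, Finset.mem_filter, Finset.mem_univ, true_and,
      Finset.mem_insert, not_or] at hq
    exact hq.2.1 (congrArg Sigma.fst h)
  · simp only [Finset.mem_sigma, Finset.mem_filter, Finset.mem_univ, true_and,
      Finset.mem_insert, not_or] at hq ⊢
    exact ⟨hq.2.2, Ne.symm hq.2.1, hq.1⟩

open Classical in
/-- The component of chains with a given number of vertices satisfying `P`. -/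
noncomputable def res (P : ℕ → Prop) : (Finset V → k) →ₗ[k] (Finset V → k) where
  toFun f := fun σ => if P σ.card then f σ else 0
  map_add' f g := funext fun σ => by
    simp only [Pi.add_apply]
    split_ifs <;> simp
  map_smul' c f := funext fun σ => by
    simp only [Pi.smul_apply, RingHom.id_apply]
    split_ifs <;> simp

theorem supp_res (P : ℕ → Prop) {f : Finset V → k} (hf : Supp X f) : Supp X (res P f) :=
  fun σ hσ => by simp [res, hf σ hσ]

theorem bd_res (P : ℕ → Prop) (f : Finset V → k) :
    bd k V (res P f) = res (fun m => P (m + 1)) (bd k V f) := by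
  classical
  have := Fintype.ofFinite V
  funext σ
  rw [bd_apply]
  show _ = if P (σ.card + 1) then bd k V f σ else 0
  by_cases h : P (σ.card + 1)
  · rw [if_pos h, bd_apply]
    refine Finset.sum_congr rfl fun x hx => ?_
    simp [res, Finset.card_insert_of_notMem (Finset.mem_filter.1 hx).2, h]
  · rw [if_neg h]
    refine Finset.sum_eq_zero fun x hx => ?_
    simp [res, Finset.card_insert_of_notMem (Finset.mem_filter.1 hx).2, h]

/-- An acyclic order complex has as many simplices of even as of odd size. -/
theorem card_even_eq_odd (h : Acyclic k X) :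
    Nat.card {σ : Finset V // IsFlag X σ ∧ Even σ.card} =
      Nat.card {σ : Finset V // IsFlag X σ ∧ Odd σ.card} := by
  classical
  let W : (ℕ → Prop) → Submodule k (Finset V → k) := fun P =>
    { carrier := {f | ∀ σ, ¬ (IsFlag X σ ∧ P σ.card) → f σ = 0}
      add_mem' := fun {f g} hf hg σ hσ => by simp [hf σ hσ, hg σ hσ]
      zero_mem' := fun _ _ => rfl
      smul_mem' := fun c f hf σ hσ => by simp [hf σ hσ] }
  have hdim : ∀ P, Module.finrank k (W P) = Nat.card {σ : Finset V // IsFlag X σ ∧ P σ.card} := by
    intro P
    have := Fintype.ofFinite V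
    let e : W P ≃ₗ[k] ({σ : Finset V // IsFlag X σ ∧ P σ.card} → k) :=
      { toFun := fun f σ => f.1 σ.1
        map_add' := fun f g => rfl
        map_smul' := fun c f => rfl
        invFun := fun φ => ⟨fun σ => if hσ : IsFlag X σ ∧ P σ.card then φ ⟨σ, hσ⟩ else 0,
          fun σ hσ => dif_neg hσ⟩
        left_inv := fun f => Subtype.ext (funext fun σ => by
          dsimp only
          by_cases hσ : IsFlag X σ ∧ P σ.card
          · rw [dif_pos hσ]
          · rw [dif_neg hσ, f.2 σ hσ])
        right_inv := fun φ => funext fun σ => dif_pos σ.2 }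
    rw [LinearEquiv.finrank_eq e, Module.finrank_fintype_fun_eq_card, Nat.card_eq_fintype_card]
  have hsupp : ∀ {P} {f : Finset V → k}, f ∈ W P → Supp X f := fun {P f} hf σ hσ =>
    hf σ fun h' => hσ h'.1
  have hkey : ∀ (P Q : ℕ → Prop), (∀ m, P (m + 1) ↔ Q m) → (∀ m, Q (m + 1) ↔ P m) →
      Module.finrank k (W P) =
        Module.finrank k (LinearMap.range ((bd k V).domRestrict (W Q))) +
        Module.finrank k (LinearMap.range ((bd k V).domRestrict (W P))) := by
    intro P Q hPQ hQP
    rw [← LinearMap.finrank_range_add_finrank_ker ((bd k V).domRestrict (W P)), add_comm]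
    congr 1
    rw [← Submodule.finrank_map_subtype_eq (W P)
      (LinearMap.ker ((bd k V).domRestrict (W P)))]
    suffices heq : Submodule.map (W P).subtype (LinearMap.ker ((bd k V).domRestrict (W P))) =
        LinearMap.range ((bd k V).domRestrict (W Q)) by rw [heq]
    apply le_antisymm
    · rintro _ ⟨⟨f, hf⟩, hker, rfl⟩
      obtain ⟨g, hg, hgf⟩ := h f (hsupp hf) (LinearMap.mem_ker.1 hker)
      refine ⟨⟨res Q g, fun σ hσ => ?_⟩, ?_⟩
      · show (if Q σ.card then g σ else 0) = 0
        split_ifs with hQ
        · exact hg σ fun h' => hσ ⟨h', hQ⟩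
        · rfl
      · show bd k V (res Q g) = f
        rw [bd_res, hgf]
        funext σ
        show (if Q (σ.card + 1) then f σ else 0) = f σ
        split_ifs with hQ
        · rfl
        · exact (hf σ fun h' => hQ ((hQP _).2 h'.2)).symm
    · rintro _ ⟨⟨g, hg⟩, rfl⟩
      refine ⟨⟨bd k V g, fun σ hσ => ?_⟩, ?_, rfl⟩
      · by_cases hfl : IsFlag X σ
        · have hr : g = res Q g := funext fun τ => by
            show g τ = if Q τ.card then g τ else 0
            split_ifs with hQ
            · rfl
            · exact hg τ fun h' => hQ h'.2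
          show bd k V g σ = 0
          rw [hr, bd_res]
          show (if Q (σ.card + 1) then _ else 0) = 0
          rw [if_neg fun hQ => hσ ⟨hfl, (hQP _).1 hQ⟩]
        · exact supp_bd (hsupp hg) σ hfl
      · exact LinearMap.mem_ker.2 (bd_bd (hsupp hg))
  have h1 := hkey Even Odd (fun m => by simp [Nat.even_add_one, Nat.not_even_iff_odd])
    (fun m => by simp [Nat.odd_add_one, Nat.not_odd_iff_even])
  have h2 := hkey Odd Even (fun m => by simp [Nat.odd_add_one, Nat.not_odd_iff_even])
    (fun m => by simp [Nat.even_add_one, Nat.not_even_iff_odd])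
  rw [hdim] at h1 h2
  omega

end Vale.Agent.P240
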