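import Mathlib

/-!
# P240: reduced homology of order complexes and the poset of elementary abelian subgroups
-/

namespace Vale.Agent.P240

open Finset

variable {V : Type*} [PartialOrder V]

/-- A simplex of the order complex of `X`: a finite chain inside `X`, the empty one included. -/
def IsFlag (X : Set V) (σ : Finset V) : Prop :=
  (σ : Set V) ⊆ X ∧ IsChain (· ≤ ·) (σ : Set V)

/-- Chains of the augmented complex of `X` with coefficients in `k`. -/
def Supp (X : Set V) {k : Type*} [Zero k] (f : Finset V → k) : Prop :=
  ∀ σ, ¬ IsFlag X σ → f σ = 0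

open Classical in
/-- The simplicial boundary, with the orientation given by the order. -/
noncomputable def bd (k : Type*) [CommRing k] (V : Type*) [PartialOrder V] [Finite V] :
    (Finset V → k) →ₗ[k] (Finset V → k) :=
  letI := Fintype.ofFinite V
  { toFun := fun f σ => ∑ x ∈ univ.filter (fun x => x ∉ σ),
      (-1 : k) ^ (σ.filter (fun y => y < x)).card * f (insert x σ)
    map_add' := fun f g => funext fun σ => by
      simp [mul_add, Finset.sum_add_distrib]
    map_smul' := fun c f => funext fun σ => by
      simp [Finset.mul_sum, mul_left_comm] }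

/-- Vanishing of all reduced homology with coefficients in `k`. -/
def Acyclic (k : Type*) [CommRing k] [Finite V] (X : Set V) : Prop :=
  ∀ f : Finset V → k, Supp X f → bd k V f = 0 → ∃ g, Supp X g ∧ bd k V g = f

/-- The nontrivial elementary abelian `p`-subgroups. -/
def Ap (p : ℕ) (G : Type*) [Group G] : Set (Subgroup G) :=
  {E | E ≠ ⊥ ∧ (∀ x ∈ E, ∀ y ∈ E, x * y = y * x) ∧ ∀ x ∈ E, x ^ p = 1}

end Vale.Agent.P240
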