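import Vale.Agent.P240.Smith

/-!
# P240: acyclicity lifts to the rationals and forces vanishing Lefschetz numbers
-/

namespace Vale.Agent.P240

open Matrix

/-- A square-zero endomorphism with all cycles bounding has a contracting homotopy. -/
theorem exists_homotopy {K W : Type*} [Field K] [AddCommGroup W] [Module K W] (M : W →ₗ[K] W)
    (hM : M.comp M = 0) (hex : LinearMap.ker M ≤ LinearMap.range M) :
    ∃ H : W →ₗ[K] W, M.comp H + H.comp M = LinearMap.id := by
  obtain ⟨g, hg⟩ := M.rangeRestrict.exists_rightInverse_of_surjective M.range_rangeRestrict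
  obtain ⟨C, hC⟩ := Submodule.exists_isCompl (LinearMap.range M)
  let π : W →ₗ[K] LinearMap.range M := (LinearMap.range M).projectionOnto C hC
  let k : W →ₗ[K] W := g.comp π
  have hMk : ∀ x, M (k x) = (π x : W) := fun x =>
    congrArg Subtype.val (LinearMap.congr_fun hg (π x))
  have hMkM : ∀ x, M (k (M x)) = M x := fun x => by
    rw [hMk]
    exact congrArg Subtype.val
      (Submodule.projectionOnto_apply_left hC ⟨M x, LinearMap.mem_range_self M x⟩)
  have hMM : ∀ x, M (M x) = 0 := fun x => LinearMap.congr_fun hM x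
  refine ⟨(k - M.comp (k.comp k)).comp (M.comp k), LinearMap.ext fun x => ?_⟩
  simp only [LinearMap.add_apply, LinearMap.comp_apply, LinearMap.sub_apply, map_sub, hMM, hMkM,
    sub_zero, LinearMap.id_apply]
  obtain ⟨w, hw⟩ : x - k (M x) ∈ LinearMap.range M :=
    hex (by rw [LinearMap.mem_ker, map_sub, hMkM, sub_self])
  have h1 : M (k (x - k (M x))) = x - k (M x) := by rw [← hw, hMkM]
  rw [map_sub, map_sub] at h1
  calc M (k x) + (k (M x) - M (k (k (M x))))
      = (M (k x) - M (k (k (M x)))) + k (M x) := by abel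
    _ = x := by rw [h1, sub_add_cancel]

variable {V : Type*} [PartialOrder V] [Finite V] {X : Set V}

open Classical in
/-- The matrix of the boundary on the simplices of `X`. -/
noncomputable def bdm (k : Type*) [CommRing k] (X : Set V) :
    Matrix {σ : Finset V // IsFlag X σ} {σ : Finset V // IsFlag X σ} k :=
  fun σ τ => bd k V (fun υ => if υ = τ.1 then 1 else 0) σ.1

open Classical in
/-- Extension of a function on simplices by zero. -/
noncomputable def ext {k : Type*} [Zero k] (X : Set V) (f : {σ : Finset V // IsFlag X σ} → k) :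
    Finset V → k :=
  fun σ => if h : IsFlag X σ then f ⟨σ, h⟩ else 0

open Classical in
theorem bdm_mulVec {k : Type*} [CommRing k] [Fintype {σ : Finset V // IsFlag X σ}]
    (f : {σ : Finset V // IsFlag X σ} → k) (σ : {σ : Finset V // IsFlag X σ}) :
    (bdm k X *ᵥ f) σ = bd k V (ext X f) σ.1 := by
  have e : ext X f = ∑ τ : {σ : Finset V // IsFlag X σ},
      f τ • fun υ => if υ = τ.1 then (1 : k) else 0 := by
    funext υ
    rw [Finset.sum_apply]
    by_cases hυ : IsFlag X υ
    · rw [Finset.sum_eq_single ⟨υ, hυ⟩ (fun τ _ hτ => by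
        have : υ ≠ τ.1 := fun e => hτ (Subtype.ext e.symm)
        simp [this]) (by simp)]
      simp [ext, hυ]
    · rw [ext, dif_neg hυ, Finset.sum_eq_zero]
      intro τ _
      have : υ ≠ τ.1 := fun e => hυ (e ▸ τ.2)
      simp [this]
  rw [e, map_sum, Finset.sum_apply]
  simp only [map_smul, Pi.smul_apply, smul_eq_mul, Matrix.mulVec, dotProduct, bdm, mul_comm]

theorem ext_mem {k : Type*} [CommRing k] (f : {σ : Finset V // IsFlag X σ} → k) :
    Supp X (ext X f) := fun _ hσ => dif_neg hσ

theorem ext_res {k : Type*} [CommRing k] {f : Finset V → k} (hf : Supp X f) :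
    ext X (fun σ : {σ : Finset V // IsFlag X σ} => f σ.1) = f := by
  funext σ
  by_cases h : IsFlag X σ
  · simp [ext, h]
  · simp [ext, h, hf σ h]

theorem bdm_map {k k' : Type*} [CommRing k] [CommRing k'] (φ : k →+* k') :
    (bdm k X).map φ = bdm k' X := by
  classical
  have := Fintype.ofFinite V
  ext σ τ
  show φ _ = _
  simp only [bdm, bd, LinearMap.coe_mk, AddHom.coe_mk, map_sum, map_mul, map_pow, map_neg, map_one,
    apply_ite φ, map_zero]

theorem bdm_sq (k : Type*) [Field k] [Fintype {σ : Finset V // IsFlag X σ}] :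
    bdm k X * bdm k X = 0 := by
  classical
  refine Matrix.ext_of_mulVec_single fun τ => funext fun σ => ?_
  rw [← Matrix.mulVec_mulVec, bdm_mulVec, Matrix.zero_mulVec, Pi.zero_apply]
  have e : ext X (bdm k X *ᵥ Pi.single τ 1) = bd k V (ext X (Pi.single τ 1)) := by
    funext υ
    by_cases h : IsFlag X υ
    · rw [ext, dif_pos h, bdm_mulVec]
    · rw [ext, dif_neg h, supp_bd (ext_mem _) υ h]
  rw [e, bd_bd (ext_mem _)]
  rfl

/-- An acyclic complex mod a prime has a rational contracting homotopy. -/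
theorem rat_homotopy {r : ℕ} [Fact r.Prime] [Fintype {σ : Finset V // IsFlag X σ}]
    [DecidableEq {σ : Finset V // IsFlag X σ}] (h : Acyclic (ZMod r) X) :
    ∃ H : Matrix {σ : Finset V // IsFlag X σ} {σ : Finset V // IsFlag X σ} ℚ,
      bdm ℚ X * H + H * bdm ℚ X = 1 := by
  let Mr := Matrix.toLin' (bdm (ZMod r) X)
  obtain ⟨H₀, hH₀⟩ := exists_homotopy Mr (by
    rw [← Matrix.toLin'_mul, bdm_sq, map_zero]) (fun f hf => by
    obtain ⟨g, hg, hgf⟩ := h (ext X f) (ext_mem f) (by
      funext σ
      by_cases hσ : IsFlag X σ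
      · rw [← bdm_mulVec f ⟨σ, hσ⟩]
        exact congrFun (LinearMap.mem_ker.1 hf) _
      · exact supp_bd (ext_mem f) σ hσ)
    refine ⟨fun σ => g σ.1, funext fun σ => ?_⟩
    rw [Matrix.toLin'_apply, bdm_mulVec, ext_res hg, hgf]
    exact dif_pos σ.2)
  let Hr := LinearMap.toMatrix' H₀
  have hr : bdm (ZMod r) X * Hr + Hr * bdm (ZMod r) X = 1 := by
    apply Matrix.toLin'.injective
    rw [map_add, Matrix.toLin'_mul, Matrix.toLin'_mul, Matrix.toLin'_one,
      Matrix.toLin'_toMatrix']
    exact hH₀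
  let Hz : Matrix {σ : Finset V // IsFlag X σ} {σ : Finset V // IsFlag X σ} ℤ :=
    Hr.map fun a => (a.val : ℤ)
  let Φz := bdm ℤ X * Hz + Hz * bdm ℤ X
  have hHz : Hz.map (Int.castRingHom (ZMod r)) = Hr := by
    ext σ τ
    simp [Hz]
  have hΦr : Φz.map (Int.castRingHom (ZMod r)) = 1 := by
    rw [Matrix.map_add _ (map_add _), Matrix.map_mul, Matrix.map_mul, bdm_map, hHz, hr]
  have hdet : Φz.det ≠ 0 := fun h0 => by
    have h1 := RingHom.map_det (Int.castRingHom (ZMod r)) Φz
    rw [h0, map_zero, RingHom.mapMatrix_apply, hΦr, Matrix.det_one] at h1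
    exact zero_ne_one h1
  let M := bdm ℚ X
  let H := Hz.map (Int.castRingHom ℚ)
  let Φ := M * H + H * M
  have hΦ : Φz.map (Int.castRingHom ℚ) = Φ := by
    rw [Matrix.map_add _ (map_add _), Matrix.map_mul, Matrix.map_mul, bdm_map]
  have hu : IsUnit Φ.det := by
    have h1 := RingHom.map_det (Int.castRingHom ℚ) Φz
    rw [RingHom.mapMatrix_apply, hΦ] at h1
    rw [← h1]
    exact isUnit_iff_ne_zero.2 (by simpa using hdet)
  have hc : M * Φ = Φ * M := by
    simp only [Φ, mul_add, add_mul, ← mul_assoc, mul_assoc H, M, bdm_sq]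
    simp
  refine ⟨Φ⁻¹ * H, ?_⟩
  have hcinv : M * Φ⁻¹ = Φ⁻¹ * M := by
    calc M * Φ⁻¹ = Φ⁻¹ * Φ * (M * Φ⁻¹) := by rw [Matrix.nonsing_inv_mul _ hu, one_mul]
      _ = Φ⁻¹ * (M * Φ) * Φ⁻¹ := by rw [hc]; simp only [mul_assoc]
      _ = Φ⁻¹ * M := by simp only [mul_assoc, Matrix.mul_nonsing_inv _ hu, mul_one]
  rw [← mul_assoc, hcinv, mul_assoc, mul_assoc, ← mul_add]
  exact Matrix.nonsing_inv_mul _ hu

/-- Rational homotopy for a rationally acyclic complex. -/
theorem rat_homotopy' [Fintype {σ : Finset V // IsFlag X σ}]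
    [DecidableEq {σ : Finset V // IsFlag X σ}] (h : Acyclic ℚ X) :
    ∃ H : Matrix {σ : Finset V // IsFlag X σ} {σ : Finset V // IsFlag X σ} ℚ,
      bdm ℚ X * H + H * bdm ℚ X = 1 := by
  obtain ⟨H₀, hH₀⟩ := exists_homotopy (Matrix.toLin' (bdm ℚ X)) (by
    rw [← Matrix.toLin'_mul, bdm_sq, map_zero]) (fun f hf => by
    obtain ⟨g, hg, hgf⟩ := h (ext X f) (ext_mem f) (by
      funext σ
      by_cases hσ : IsFlag X σ
      · rw [← bdm_mulVec f ⟨σ, hσ⟩]
        exact congrFun (LinearMap.mem_ker.1 hf) _
      · exact supp_bd (ext_mem f) σ hσ)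
    refine ⟨fun σ => g σ.1, funext fun σ => ?_⟩
    rw [Matrix.toLin'_apply, bdm_mulVec, ext_res hg, hgf]
    exact dif_pos σ.2)
  refine ⟨LinearMap.toMatrix' H₀, Matrix.toLin'.injective ?_⟩
  rw [map_add, Matrix.toLin'_mul, Matrix.toLin'_mul, Matrix.toLin'_one, Matrix.toLin'_toMatrix']
  exact hH₀

open Classical in
theorem bdm_img {g : V ≃o V} {σ τ : Finset V} :
    bd ℚ V (fun υ => if υ = img g τ then 1 else 0) (img g σ) =
      bd ℚ V (fun υ => if υ = τ then 1 else 0) σ := by
  have := Fintype.ofFinite V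
  rw [bd_apply, bd_apply]
  symm
  refine Finset.sum_equiv g.toEquiv (fun x => ?_) (fun x hx => ?_)
  · simp only [Finset.mem_filter, Finset.mem_univ, true_and]
    exact not_congr mem_img.symm
  · congr 1
    · congr 1
      rw [show (img g σ).filter (fun y => y < g.toEquiv x) = img g (σ.filter fun y => y < x) from ?_]
      · exact (Finset.card_map _).symm
      · rw [img, img, Finset.filter_map]
        congr 1
        exact Finset.filter_congr fun y _ => g.lt_iff_lt
    · have hinj : Function.Injective (img g) := Finset.map_injective _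
      have e : insert (g.toEquiv x) (img g σ) = img g (insert x σ) :=
        (Finset.map_insert _ _ _).symm
      simp only [e, hinj.eq_iff]

/-- With a contracting homotopy the Lefschetz number of every automorphism vanishes. -/
theorem lefschetz [Fintype {σ : Finset V // IsFlag X σ}] [DecidableEq {σ : Finset V // IsFlag X σ}]
    (g : V ≃o V) (hX : ∀ x, g x ∈ X ↔ x ∈ X)
    (H : Matrix {σ : Finset V // IsFlag X σ} {σ : Finset V // IsFlag X σ} ℚ)
    (hH : bdm ℚ X * H + H * bdm ℚ X = 1) :
    Nat.card {σ : Finset V // IsFlag X σ ∧ img g σ = σ ∧ Even σ.card} =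
      Nat.card {σ : Finset V // IsFlag X σ ∧ img g σ = σ ∧ Odd σ.card} := by
  classical
  have := Fintype.ofFinite V
  set M := bdm ℚ X
  let D : Matrix {σ : Finset V // IsFlag X σ} {σ : Finset V // IsFlag X σ} ℚ :=
    Matrix.diagonal fun σ => (-1) ^ σ.1.card
  let e : {σ : Finset V // IsFlag X σ} ≃ {σ : Finset V // IsFlag X σ} :=
    Equiv.ofBijective (fun σ => ⟨img g σ.1, (img_flag hX _).2 σ.2⟩)
      ((Finite.injective_iff_bijective).1 fun a b h =>
        Subtype.ext (Finset.map_injective _ (congrArg Subtype.val h)))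
  let P : Matrix {σ : Finset V // IsFlag X σ} {σ : Finset V // IsFlag X σ} ℚ :=
    fun σ τ => if τ = e σ then 1 else 0
  have hMD : D * M + M * D = 0 := by
    ext σ τ
    rw [Matrix.add_apply, Matrix.diagonal_mul, Matrix.mul_diagonal, Matrix.zero_apply]
    by_cases hz : M σ τ = 0
    · simp [hz]
    · have hcard : τ.1.card = σ.1.card + 1 := by
        by_contra hne
        refine hz ?_
        show bd ℚ V _ σ.1 = 0
        rw [bd_apply]
        refine Finset.sum_eq_zero fun x hx => ?_
        rw [if_neg, mul_zero]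
        intro h
        exact hne (by rw [← h, Finset.card_insert_of_notMem (Finset.mem_filter.1 hx).2])
      rw [hcard, pow_succ]
      ring
  have hMP : M * P = P * M := by
    ext σ τ
    rw [Matrix.mul_apply, Matrix.mul_apply, Finset.sum_eq_single (e.symm τ) (fun υ _ h => by
        simp only [P]
        rw [if_neg fun h' => h (by rw [h', Equiv.symm_apply_apply]), mul_zero]) (by simp),
      Finset.sum_eq_single (e σ) (fun υ _ h => by simp [P, h]) (by simp)]
    simp only [P, Equiv.apply_symm_apply, if_true, mul_one, one_mul]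
    show bd ℚ V _ σ.1 = bd ℚ V _ (img g σ.1)
    have hτ : img g (e.symm τ).1 = τ.1 := congrArg Subtype.val (e.apply_symm_apply τ)
    rw [← hτ]
    exact bdm_img.symm
  have htr : (D * P).trace = 0 := by
    have h1 : M * D = -(D * M) := eq_neg_of_add_eq_zero_right hMD
    calc (D * P).trace = (D * P * (M * H)).trace + (D * P * (H * M)).trace := by
          rw [← Matrix.trace_add, ← mul_add, hH, mul_one]
      _ = (D * P * (M * H)).trace + (M * (D * P * H)).trace := by
          congr 1
          rw [← mul_assoc, Matrix.trace_mul_comm]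
      _ = 0 := by
          rw [show M * (D * P * H) = -(D * P * (M * H)) by
            rw [← mul_assoc, ← mul_assoc, h1, Matrix.neg_mul, Matrix.neg_mul, mul_assoc D M P, hMP]
            simp only [mul_assoc], Matrix.trace_neg, add_neg_cancel]
  have hdiag : ∀ σ, (D * P) σ σ =
      (if img g σ.1 = σ.1 ∧ Even σ.1.card then 1 else 0) -
        (if img g σ.1 = σ.1 ∧ Odd σ.1.card then 1 else 0) := by
    intro σ
    rw [Matrix.diagonal_mul]
    by_cases h : img g σ.1 = σ.1
    · have hP : P σ σ = 1 := if_pos (Subtype.ext h.symm)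
      rw [hP, mul_one]
      rcases Nat.even_or_odd σ.1.card with h' | h'
      · simp [h, h', h'.neg_one_pow, Nat.not_odd_iff_even.2 h']
      · simp [h, h', h'.neg_one_pow, Nat.not_even_iff_odd.2 h']
    · have hP : P σ σ = 0 := if_neg fun h' => h (congrArg Subtype.val h').symm
      simp [hP, h]
  have hcount : ∀ Q : Finset V → Prop,
      (Nat.card {σ : Finset V // IsFlag X σ ∧ Q σ} : ℚ) =
        ∑ σ : {σ : Finset V // IsFlag X σ}, if Q σ.1 then 1 else 0 := by
    intro Q
    rw [Finset.sum_boole, ← Fintype.card_subtype, Nat.card_eq_fintype_card]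
    exact_mod_cast (Fintype.card_congr (Equiv.subtypeSubtypeEquivSubtypeInter _ Q)).symm
  simp only [Matrix.trace, Matrix.diag_apply, hdiag, Finset.sum_sub_distrib] at htr
  have h1 := hcount fun σ => img g σ = σ ∧ Even σ.card
  have h2 := hcount fun σ => img g σ = σ ∧ Odd σ.card
  refine Nat.cast_injective (R := ℚ) ?_
  rw [h1, h2]
  convert sub_eq_zero.1 htr using 4

end Vale.Agent.P240
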