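import Vale.Agent.P240.Stages

/-!
# P240: elementary abelian groups normalised by cycles on the parts of a partitioned set
-/

namespace Vale.Agent.P240

open Equiv

variable {Ω : Type*} [Finite Ω] {κ : Type*} {p : ℕ}

/-- If an abelian `p`-group preserves a set cut into parts of size at least two and prime to `p`,
and is normalised, for each part, by permutations transitive on it which fix the other points of the
set, then it fixes the set pointwise. -/
theorem parts_fix [Fact p.Prime] (S : Set Ω) (π : Ω → κ) (F : Subgroup (Perm Ω))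
    (hF : IsPGroup p F) (hab : ∀ a ∈ F, ∀ b ∈ F, a * b = b * a)
    (hFS : ∀ e ∈ F, ∀ x ∈ S, e x ∈ S)
    (hp : ∀ x ∈ S, ¬ p ∣ Nat.card {z // z ∈ S ∧ π z = π x})
    (h2 : ∀ x ∈ S, 2 ≤ Nat.card {z // z ∈ S ∧ π z = π x})
    (htr : ∀ x ∈ S, ∀ w ∈ S, π w = π x → ∃ h : Perm Ω, h x = w ∧
      (∀ e ∈ F, h * e * h⁻¹ ∈ F) ∧
      ∀ z ∈ S, π z ≠ π x → h z = z) :
    ∀ e ∈ F, ∀ x ∈ S, e x = x := by
  classical
  have happ : ∀ (h e : Perm Ω) (z : Ω), (h * e * h⁻¹) (h z) = h (e z) := fun h e z => by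
    simp [Perm.mul_apply]
  -- no orbit meets two parts
  have hsub : ∀ x ∈ S, ∀ e ∈ F, π (e x) = π x := by
    intro x hx
    by_contra hne
    push Not at hne
    obtain ⟨e₀, he₀, hne₀⟩ := hne
    set z := e₀ x with hz
    have hzS : z ∈ S := hFS e₀ he₀ x hx
    let M : Subgroup (Perm Ω) :=
      { carrier := {e | e ∈ F ∧ ∀ h : Perm Ω, (∀ a ∈ F, h * a * h⁻¹ ∈ F) →
          (∀ u ∈ S, π u ≠ π x → h u = u) → (h * e * h⁻¹) z = e z}
        one_mem' := ⟨one_mem _, fun h _ _ => by simp⟩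
        mul_mem' := fun {a b} ha hb => ⟨mul_mem ha.1 hb.1, fun h hn hf => by
          have e1 : h * (a * b) * h⁻¹ = (h * a * h⁻¹) * (h * b * h⁻¹) := by group
          rw [e1, Perm.mul_apply, hb.2 h hn hf, ← Perm.mul_apply,
            hab _ (hn a ha.1) _ hb.1, Perm.mul_apply, ha.2 h hn hf, ← Perm.mul_apply,
            hab _ hb.1 _ ha.1]⟩
        inv_mem' := fun {a} ha => ⟨inv_mem ha.1, fun h hn hf => by
          have h1 := ha.2 h hn hf
          have e1 : h * a⁻¹ * h⁻¹ = (h * a * h⁻¹)⁻¹ := by group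
          rw [e1, Perm.inv_eq_iff_eq, ← Perm.mul_apply, hab _ (hn a ha.1) _ (inv_mem ha.1),
            Perm.mul_apply, h1, ← Perm.mul_apply, inv_mul_cancel, Perm.one_apply]⟩ }
    have hMF : M ≤ F := fun e he => he.1
    -- `M` moves `z` onto the points of the orbit outside the part of `x`
    have hW : ∀ e ∈ F, π (e z) ≠ π x ↔ e ∈ M := by
      intro e he
      constructor
      · intro hu
        refine ⟨he, fun h hn hf => ?_⟩
        calc (h * e * h⁻¹) z = (h * e * h⁻¹) (h z) := by rw [hf z hzS hne₀]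
          _ = h (e z) := happ h e z
          _ = e z := hf _ (hFS e he z hzS) hu
      · rintro ⟨-, hM⟩ hu
        have hP : e z ∈ S ∧ π (e z) = π x := ⟨hFS e he z hzS, hu⟩
        obtain ⟨⟨w, hw, hwx⟩, hwne⟩ :
            ∃ q : {q // q ∈ S ∧ π q = π x}, q.1 ≠ e z := by
          by_contra hall
          push Not at hall
          have : Subsingleton {q // q ∈ S ∧ π q = π x} :=
            ⟨fun a b => Subtype.ext ((hall a).trans (hall b).symm)⟩
          have := Finite.card_le_one_iff_subsingleton.2 this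
          have := h2 x hx
          omega
        obtain ⟨h, hhw, hn, hf⟩ := htr _ hP.1 w hw (hwx.trans hu.symm)
        have hf' : ∀ u ∈ S, π u ≠ π x → h u = u := fun u hu' hux => hf u hu' (hu.symm ▸ hux)
        have h3 := hM h hn hf'
        have h4 : (h * e * h⁻¹) (h z) = h (e z) := happ h e z
        rw [hf' z hzS hne₀, h3, hhw] at h4
        exact hwne h4.symm
    let actF : MulAction F Ω := inferInstance
    have horbF : ∀ u, u ∈ MulAction.orbit F z ↔ ∃ e ∈ F, e z = u := fun u =>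
      ⟨fun ⟨e, he⟩ => ⟨e, e.2, he⟩, fun ⟨e, he, h⟩ => ⟨⟨e, he⟩, h⟩⟩
    have horbM : ∀ u, u ∈ MulAction.orbit M z ↔ ∃ e ∈ M, e z = u := fun u =>
      ⟨fun ⟨e, he⟩ => ⟨e, e.2, he⟩, fun ⟨e, he, h⟩ => ⟨⟨e, he⟩, h⟩⟩
    have hPsub : ∀ w ∈ S, π w = π x → w ∈ MulAction.orbit F z := by
      intro w hw hwx
      obtain ⟨h, hhw, hn, hf⟩ := htr x hx w hw hwx
      refine (horbF w).2 ⟨h * e₀⁻¹ * h⁻¹, hn _ (inv_mem he₀), ?_⟩
      calc (h * e₀⁻¹ * h⁻¹) z = (h * e₀⁻¹ * h⁻¹) (h z) := by rw [hf z hzS hne₀]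
        _ = h (e₀⁻¹ z) := happ h _ z
        _ = w := by rw [hz, Perm.inv_def, Equiv.symm_apply_apply, hhw]
    have hsplit : Nat.card (MulAction.orbit F z) =
        Nat.card (MulAction.orbit M z) + Nat.card {q // q ∈ S ∧ π q = π x} := by
      have hset : MulAction.orbit F z = MulAction.orbit M z ∪ {q | q ∈ S ∧ π q = π x} := by
        ext u
        rw [Set.mem_union, horbF, horbM]
        constructor
        · rintro ⟨e, he, rfl⟩
          by_cases hu : π (e z) = π x
          · exact Or.inr ⟨hFS e he z hzS, hu⟩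
          · exact Or.inl ⟨e, (hW e he).1 hu, rfl⟩
        · rintro (⟨e, he, rfl⟩ | ⟨hu, hux⟩)
          · exact ⟨e, hMF he, rfl⟩
          · exact (horbF u).1 (hPsub u hu hux)
      have hdis : Disjoint (MulAction.orbit M z) {q | q ∈ S ∧ π q = π x} := by
        refine Set.disjoint_left.2 fun u hu hu' => ?_
        obtain ⟨e, he, rfl⟩ := (horbM u).1 hu
        exact ((hW e (hMF he)).2 he) hu'.2
      rw [Nat.card_coe_set_eq, hset,
        Set.ncard_union_eq hdis (Set.toFinite _) (Set.toFinite _), Nat.card_coe_set_eq]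
      rfl
    obtain ⟨a, ha⟩ := hF.card_orbit z
    obtain ⟨b, hb⟩ := (hF.to_le hMF).card_orbit z
    -- the part of `z` lies in the orbit of `M`
    have hb1 : b ≠ 0 := by
      intro h0
      rw [h0, pow_zero] at hb
      have hle : 2 ≤ Nat.card (MulAction.orbit M z) := by
        refine le_trans (h2 z hzS) (Nat.card_le_card_of_injective (β := MulAction.orbit M z)
          (fun q => ⟨q.1, ?_⟩) fun q q' hqq => Subtype.ext (congrArg (fun v : MulAction.orbit M z => (v : Ω)) hqq))
        obtain ⟨h, hhw, hn, hf⟩ := htr z hzS q.1 q.2.1 q.2.2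
        refine (horbM q.1).2 ⟨h * e₀ * h⁻¹ * e₀⁻¹, (hW _ (mul_mem (hn _ he₀) (inv_mem he₀))).1 ?_,
          ?_⟩
        all_goals
          have hx' : h x = x := hf x hx fun e => hne₀ e.symm
          have e1 : (h * e₀ * h⁻¹ * e₀⁻¹) z = q.1 := by
            calc (h * e₀ * h⁻¹ * e₀⁻¹) z = (h * e₀ * h⁻¹) x := by
                  rw [hz, ← Perm.mul_apply, mul_assoc (h * e₀ * h⁻¹), inv_mul_cancel, mul_one]
              _ = (h * e₀ * h⁻¹) (h x) := by rw [hx']
              _ = q.1 := by rw [happ, ← hz, hhw]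
        · rw [e1, q.2.2]; exact hne₀
        · exact e1
      omega
    have ha1 : a ≠ 0 := by
      intro h0
      rw [h0, pow_zero] at ha
      have := h2 x hx
      omega
    have d1 : p ∣ Nat.card (MulAction.orbit F z) := ha ▸ dvd_pow_self p ha1
    have d2 : p ∣ Nat.card (MulAction.orbit M z) := hb ▸ dvd_pow_self p hb1
    rw [hsplit] at d1
    exact hp x hx ((Nat.dvd_add_right d2).1 d1)
  intro e he x hx
  let _ : MulAction F {z // z ∈ S ∧ π z = π x} :=
    { smul := fun a z => ⟨(a : Perm Ω) z.1, hFS a a.2 z.1 z.2.1,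
        (hsub z.1 z.2.1 a a.2).trans z.2.2⟩
      one_smul := fun z => Subtype.ext rfl
      mul_smul := fun a b z => Subtype.ext rfl }
  obtain ⟨⟨w, hw, hwx⟩, hfix⟩ :=
    hF.nonempty_fixed_point_of_prime_not_dvd_card {z // z ∈ S ∧ π z = π x} (hp x hx)
  obtain ⟨h, rfl, hn, hf⟩ := htr w hw x hx hwx.symm
  -- conjugation by `h⁻¹` maps `F` into itself as well
  obtain ⟨a, rfl⟩ : ∃ a : F, h * (a : Perm Ω) * h⁻¹ = e := by
    have : Function.Injective fun a : F => (⟨h * (a : Perm Ω) * h⁻¹, hn a a.2⟩ : F) :=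
      fun a b hab => Subtype.ext (mul_left_cancel (mul_right_cancel (congrArg Subtype.val hab)))
    obtain ⟨a, ha⟩ := (Finite.injective_iff_surjective.1 this) ⟨e, he⟩
    exact ⟨a, congrArg Subtype.val ha⟩
  rw [happ]
  exact congrArg h (congrArg Subtype.val (hfix a))

end Vale.Agent.P240
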