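import Vale.Agent.P240.Smith

/-!
# P240: subgroups of coprime prime power order normalising no p-subgroup of their component
-/

namespace Vale.Agent.P240

open Finset

variable {G : Type*} [Group G]

/-- Conjugation on subgroups. -/
def cj (a : G) : Subgroup G ≃o Subgroup G := (MulAut.conj a).mapSubgroup

theorem mem_cj {a : G} {E : Subgroup G} {x : G} : x ∈ cj a E ↔ a⁻¹ * x * a ∈ E :=
  Subgroup.mem_map_equiv.trans (by simp [MulAut.conj_symm_apply])

theorem cj_one (E : Subgroup G) : cj 1 E = E := by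
  ext; simp [mem_cj]

theorem cj_mul (a b : G) (E : Subgroup G) : cj (a * b) E = cj a (cj b E) := by
  ext; simp [mem_cj, mul_assoc]

theorem cj_iter (a : G) : ∀ (n : ℕ) (E : Subgroup G), (cj a)^[n] E = cj (a ^ n) E
  | 0, E => by rw [pow_zero, cj_one]; rfl
  | n + 1, E => by rw [Function.iterate_succ_apply', cj_iter a n, pow_succ', cj_mul]

theorem card_cj (a : G) (E : Subgroup G) : Nat.card (cj a E : Subgroup G) = Nat.card E :=
  (Nat.card_congr ((MulAut.conj a).subgroupMap E).toEquiv).symm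

/-- The elements fixing a subgroup under conjugation. -/
def stab (E : Subgroup G) : Subgroup G where
  carrier := {a | cj a E = E}
  one_mem' := cj_one E
  mul_mem' := fun {a b} (ha : cj a E = E) (hb : cj b E = E) => by
    show cj (a * b) E = E
    rw [cj_mul, hb, ha]
  inv_mem' := fun {a} (ha : cj a E = E) => by
    show cj a⁻¹ E = E
    conv_lhs => rw [← ha, ← cj_mul, inv_mul_cancel, cj_one]

theorem mem_stab {E : Subgroup G} {a : G} : a ∈ stab E ↔ cj a E = E := Iff.rfl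

/-- The members of `X` fixed by all elements of `R`. -/
def fixBy (X : Set (Subgroup G)) (R : Subgroup G) : Set (Subgroup G) := {E ∈ X | R ≤ stab E}

variable [Finite G] {r : ℕ} [Fact r.Prime]

theorem acyclic_cyclic : ∀ (k : ℕ) (a : G) (X : Set (Subgroup G)),
    (∀ E, cj a E ∈ X ↔ E ∈ X) → (∀ E ∈ X, cj (a ^ r ^ k) E = E) → Acyclic (ZMod r) X →
    Acyclic (ZMod r) {E ∈ X | cj a E = E} := by
  intro k
  induction k with
  | zero =>
    intro a X _ hk h
    have e : {E ∈ X | cj a E = E} = X := Set.ext fun E =>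
      ⟨fun hE => hE.1, fun hE => ⟨hE, by simpa using hk E hE⟩⟩
    rw [e]; exact h
  | succ k ih =>
    intro a X hinv hk h
    have hpow : ∀ n E, cj (a ^ n) E ∈ X ↔ E ∈ X := fun n => by
      induction n with
      | zero => intro E; rw [pow_zero, cj_one]
      | succ n ihn => intro E; rw [pow_succ', cj_mul, hinv, ihn]
    have h1 := ih (a ^ r) X (hpow r)
      (fun E hE => by rw [← pow_mul, ← pow_succ']; exact hk E hE) h
    have h2 := smith (g := cj a) (X := {E ∈ X | cj (a ^ r) E = E})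
      (fun E => and_congr (hinv E) (by
        rw [← cj_mul, ← pow_succ, pow_succ', cj_mul]
        exact (cj a).injective.eq_iff))
      (fun E hE => by rw [cj_iter]; exact hE.2) h1
    have e : {E ∈ {E ∈ X | cj (a ^ r) E = E} | cj a E = E} = {E ∈ X | cj a E = E} :=
      Set.ext fun E => ⟨fun hE => ⟨hE.1.1, hE.2⟩, fun hE => ⟨⟨hE.1,
        mem_stab.1 (pow_mem (mem_stab.2 hE.2) r)⟩, hE.2⟩⟩
    rw [e] at h2
    exact h2

theorem acyclic_fixBy : ∀ (d : ℕ) (R : Subgroup G) (X : Set (Subgroup G)), Nat.card R = d →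
    IsPGroup r R → (∀ a ∈ R, ∀ E, cj a E ∈ X ↔ E ∈ X) → Acyclic (ZMod r) X →
    Acyclic (ZMod r) (fixBy X R) := by
  intro d
  induction d using Nat.strong_induction_on with
  | _ d ih =>
    intro R X hd hR hinv h
    by_cases hbot : R = ⊥
    · have e : fixBy X R = X := Set.ext fun E =>
        ⟨fun hE => hE.1, fun hE => ⟨hE, by rw [hbot]; exact bot_le⟩⟩
      rw [e]; exact h
    have hnt : (⊥ : Subgroup R) ≠ ⊤ := fun e => hbot (by
      rw [eq_bot_iff]
      intro x hx
      have h1 : (⟨x, hx⟩ : R) ∈ (⊥ : Subgroup R) := e ▸ Subgroup.mem_top _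
      exact Subgroup.mem_bot.2 (congrArg Subtype.val (Subgroup.mem_bot.1 h1)))
    obtain ⟨M, hM, -⟩ := (eq_top_or_exists_le_coatom (⊥ : Subgroup R)).resolve_left hnt
    have := hR.isNilpotent
    have hMn : M.Normal := Subgroup.NormalizerCondition.normal_of_coatom M Group.normalizerCondition_of_isNilpotent hM
    obtain ⟨a, -, haM⟩ := SetLike.exists_of_lt (lt_top_iff_ne_top.2 hM.1)
    have hgen : M ⊔ Subgroup.zpowers a = ⊤ := hM.2 _ (left_lt_sup.2 fun hle =>
      haM (hle (Subgroup.mem_zpowers a)))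
    let M' : Subgroup G := M.map R.subtype
    have hM'R : M' ≤ R := Subgroup.map_subtype_le M
    have hcard : Nat.card M' < d := by
      rw [← hd]
      refine lt_of_le_of_ne (Subgroup.card_le_of_le hM'R) fun e => ?_
      have e1 : M' = R := Subgroup.eq_of_le_of_card_ge hM'R e.ge
      refine haM ?_
      have h1 : (a : G) ∈ M' := e1.symm ▸ a.2
      obtain ⟨b, hb, hbe⟩ := h1
      rwa [Subtype.ext hbe] at hb
    have h1 := ih _ hcard M' X rfl (hR.to_le hM'R) (fun b hb => hinv b (hM'R hb)) h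
    obtain ⟨k, hk⟩ := hR a
    have hnorm : ∀ b : R, ∀ E, (∀ m ∈ M, (m : G) ∈ stab E) → ∀ m ∈ M,
        (m : G) ∈ stab (cj (b : G) E) := fun b E hE m hm => by
      have h2 : ((b⁻¹ * m * b : R) : G) ∈ stab E := hE _ (by simpa using hMn.conj_mem m hm b⁻¹)
      rw [mem_stab] at h2 ⊢
      conv_rhs => rw [← h2]
      rw [← cj_mul, ← cj_mul]
      congr 1
      simp only [Subgroup.coe_mul, InvMemClass.coe_inv]
      group
    have hiff : ∀ E, M' ≤ stab E ↔ ∀ m ∈ M, (m : G) ∈ stab E := fun E =>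
      ⟨fun h m hm => h ⟨m, hm, rfl⟩, fun h _ ⟨m, hm, e⟩ => e ▸ h m hm⟩
    have h3 := acyclic_cyclic k (a : G) (fixBy X M')
      (fun E => and_congr (hinv _ a.2 E) (by
        rw [hiff, hiff]
        refine ⟨fun hE => ?_, hnorm a E⟩
        have := hnorm a⁻¹ _ hE
        rwa [InvMemClass.coe_inv, ← cj_mul, inv_mul_cancel, cj_one] at this))
      (fun E _ => by
        rw [show (a : G) ^ r ^ k = 1 from congrArg Subtype.val hk, cj_one]) h1
    have e : {E ∈ fixBy X M' | cj (a : G) E = E} = fixBy X R := by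
      ext E
      refine ⟨fun ⟨⟨hE, hM'⟩, ha⟩ => ⟨hE, fun x hx => ?_⟩,
        fun ⟨hE, hR'⟩ => ⟨⟨hE, hM'R.trans hR'⟩, hR' a.2⟩⟩
      have hle : M ⊔ Subgroup.zpowers a ≤ (stab E).comap R.subtype :=
        sup_le (fun m hm => Subgroup.mem_comap.2 (hM' (Subgroup.mem_map_of_mem R.subtype hm)))
          (Subgroup.zpowers_le.2 (Subgroup.mem_comap.2 (mem_stab.2 ha)))
      rw [hgen] at hle
      exact Subgroup.mem_comap.1 (hle (Subgroup.mem_top (⟨x, hx⟩ : R)))
    rw [e] at h3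
    exact h3

/-- The action of a subgroup on simplices of a given kind. -/
@[instance_reducible]
def flagAction (R : Subgroup G) (X : Set (Subgroup G))
    (hinv : ∀ a ∈ R, ∀ E, cj a E ∈ X ↔ E ∈ X) (P : ℕ → Prop) :
    MulAction R {σ : Finset (Subgroup G) // IsFlag X σ ∧ P σ.card} where
  smul a σ := ⟨img (cj (a : G)) σ.1, (img_flag (hinv _ a.2) σ.1).2 σ.2.1,
    by rw [img, Finset.card_map]; exact σ.2.2⟩
  one_smul σ := Subtype.ext (by
    show img (cj ((1 : R) : G)) σ.1 = σ.1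
    rw [img, show (cj ((1 : R) : G)).toEquiv.toEmbedding = Function.Embedding.refl _
      from Function.Embedding.ext fun E => cj_one E, Finset.map_refl])
  mul_smul a b σ := Subtype.ext (by
    show img (cj ((a * b : R) : G)) σ.1 = img (cj (a : G)) (img (cj (b : G)) σ.1)
    rw [img, img, img, Finset.map_map]
    congr 1
    exact Function.Embedding.ext fun E => cj_mul (a : G) (b : G) E)

theorem card_flags_modEq {s : ℕ} [Fact s.Prime] (R : Subgroup G) (hR : IsPGroup s R)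
    (X : Set (Subgroup G)) (hinv : ∀ a ∈ R, ∀ E, cj a E ∈ X ↔ E ∈ X)
    (hfix : ∀ E ∈ X, ¬ R ≤ stab E) (P : ℕ → Prop) :
    Nat.card {σ : Finset (Subgroup G) // IsFlag X σ ∧ P σ.card} ≡
      Nat.card {u : Unit // P 0} [MOD s] := by
  classical
  let _ := flagAction R X hinv P
  refine (hR.card_modEq_card_fixedPoints _).trans (show _ ≡ _ [MOD s] from congrArg (· % s) ?_)
  have hempty : ∀ τ : {σ : Finset (Subgroup G) // IsFlag X σ ∧ P σ.card},
      τ ∈ MulAction.fixedPoints R _ → τ.1 = ∅ := by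
    intro τ hτ
    by_contra hne
    obtain ⟨E, hE⟩ := Finset.nonempty_iff_ne_empty.2 hne
    refine hfix E (τ.2.1.1 hE) fun a ha => ?_
    have h1 : img (cj a) τ.1 = τ.1 := congrArg Subtype.val (hτ ⟨a, ha⟩)
    have h2 : cj a E ∈ τ.1 := h1 ▸ mem_img.2 hE
    rcases τ.2.1.2.total h2 hE with h3 | h3
    · exact Subgroup.eq_of_le_of_card_ge h3 (card_cj a E).ge
    · exact (Subgroup.eq_of_le_of_card_ge h3 (card_cj a E).le).symm
  exact Nat.card_congr
    { toFun := fun τ => ⟨(), by simpa [hempty τ.1 τ.2] using τ.1.2.2⟩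
      invFun := fun u => ⟨⟨∅, isFlag_empty X, by simpa using u.2⟩,
        fun a => Subtype.ext (Finset.map_empty _)⟩
      left_inv := fun τ => Subtype.ext (Subtype.ext (hempty τ.1 τ.2).symm)
      right_inv := fun u => Subsingleton.elim _ _ }

/-- A fixed-point free action of a group of prime power order contradicts acyclicity. -/
theorem not_acyclic_of_no_fixed {k : Type*} [Field k] {s : ℕ} [Fact s.Prime] (R : Subgroup G)
    (hR : IsPGroup s R) (X : Set (Subgroup G)) (hinv : ∀ a ∈ R, ∀ E, cj a E ∈ X ↔ E ∈ X)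
    (hfix : ∀ E ∈ X, ¬ R ≤ stab E) : ¬ Acyclic k X := by
  intro h
  have h1 := card_flags_modEq (s := s) R hR X hinv hfix Even
  have h2 := card_flags_modEq (s := s) R hR X hinv hfix Odd
  rw [card_even_eq_odd h] at h1
  have h3 := h1.symm.trans h2
  rw [show Nat.card {u : Unit // Even 0} = 1 by simp, show Nat.card {u : Unit // Odd 0} = 0 by simp,
    Nat.ModEq, Nat.zero_mod, Nat.mod_eq_of_lt (Fact.out : s.Prime).one_lt] at h3
  exact one_ne_zero h3

theorem ap_invariant (p : ℕ) (a : G) (E : Subgroup G) : cj a E ∈ Ap p G ↔ E ∈ Ap p G := by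
  have key : ∀ (a : G) (E : Subgroup G), E ∈ Ap p G → cj a E ∈ Ap p G := by
    rintro a E ⟨h1, h2, h3⟩
    refine ⟨fun e => h1 ?_, fun x hx y hy => ?_, fun x hx => ?_⟩
    · rw [← cj_one E, ← inv_mul_cancel a, cj_mul, e]
      exact Subgroup.map_bot _
    · have := h2 _ (mem_cj.1 hx) _ (mem_cj.1 hy)
      have e : a⁻¹ * (x * y) * a = a⁻¹ * (y * x) * a := by
        calc a⁻¹ * (x * y) * a = a⁻¹ * x * a * (a⁻¹ * y * a) := by group
          _ = a⁻¹ * y * a * (a⁻¹ * x * a) := this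
          _ = a⁻¹ * (y * x) * a := by group
      simpa using e
    · have := h3 _ (mem_cj.1 hx)
      have e := @conj_pow G _ p a⁻¹ x
      rw [inv_inv] at e
      rw [e] at this
      calc x ^ p = a * (a⁻¹ * x ^ p * a) * a⁻¹ := by group
        _ = 1 := by rw [this, mul_one, mul_inv_cancel]
  exact ⟨fun h => by simpa [← cj_mul, cj_one] using key a⁻¹ _ h, key a E⟩

section Main

variable {p : ℕ} {ι : Type*} [Finite ι] (L R : ι → Subgroup G)

/-- Commuting pieces of prime power order generate a group of prime power order. -/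
theorem isPGroup_sup {t : ℕ} (hcomm : ∀ i j, i ≠ j → ∀ x ∈ L i, ∀ y ∈ L j, x * y = y * x)
    (hRL : ∀ i, R i ≤ L i) (J : Finset ι) (hJ : ∀ i ∈ J, IsPGroup t (R i)) :
    IsPGroup t (⨆ i ∈ J, R i : Subgroup G) := by
  classical
  induction J using Finset.induction_on with
  | empty =>
    rw [show (⨆ i ∈ (∅ : Finset ι), R i) = ⊥ by simp]
    exact IsPGroup.of_bot
  | @insert i J hi ih =>
    rw [Finset.iSup_insert]
    refine (hJ i (Finset.mem_insert_self _ _)).to_sup_of_normal_right'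
      (ih fun j hj => hJ j (Finset.mem_insert_of_mem hj)) ?_
    refine le_trans (Subgroup.le_centralizer_iff.1 (iSup₂_le fun j hj => ?_))
      (Subgroup.centralizer_le_normalizer _)
    intro y hy
    refine Subgroup.mem_centralizer_iff.2 fun x hx => ?_
    exact hcomm i j (fun e => hi (e ▸ hj)) x (hRL i hx) y (hRL j hy)

/-- An invariant elementary abelian subgroup centralises the component. -/
theorem centralises {t : ℕ} [Fact t.Prime] [Fact p.Prime] (htp : t ≠ p)
    (hperm : ∀ g i, ∃ j, cj g (L i) = L j)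
    (hcomm : ∀ i j, i ≠ j → ∀ x ∈ L i, ∀ y ∈ L j, x * y = y * x)
    (hne : ∀ i j, i ≠ j → ¬ R i ≤ L j) (hRL : ∀ i, R i ≤ L i) (i : ι) (hRt : IsPGroup t (R i))
    (hrob : ∀ E ∈ Ap p G, (∀ x ∈ E, ∀ y, y ∈ L i ↔ x * y * x⁻¹ ∈ L i) →
      (∀ ρ ∈ R i, ∀ x ∈ E, ρ * x * ρ⁻¹ ∈ E) → ∀ x ∈ E, ∀ y ∈ L i, x * y = y * x)
    (E : Subgroup G) (hE : E ∈ Ap p G) (hfix : R i ≤ stab E) :
    ∀ x ∈ E, ∀ y ∈ L i, x * y = y * x := by
  have hRE : ∀ ρ ∈ R i, ∀ x ∈ E, ρ * x * ρ⁻¹ ∈ E := fun ρ hρ x hx => by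
    have h1 : cj ρ E = E := hfix hρ
    rw [← h1, mem_cj]
    simpa [mul_assoc] using hx
  refine hrob E hE (fun x hx => ?_) hRE
  obtain ⟨j, hj⟩ := hperm x i
  have hji : j = i := by
    by_contra hne'
    refine hne i j (Ne.symm hne') fun ρ hρ => ?_
    have h1 : x * ρ * x⁻¹ ∈ L j := by
      rw [← hj, mem_cj]
      simpa [mul_assoc] using hRL i hρ
    have hcomm' : Commute (x * ρ * x⁻¹) ρ⁻¹ :=
      hcomm j i hne' _ h1 _ (inv_mem (hRL i hρ))
    have hcE : x * ρ * x⁻¹ * ρ⁻¹ ∈ E := by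
      have := mul_mem hx (hRE ρ hρ x⁻¹ (inv_mem hx))
      simpa [mul_assoc] using this
    obtain ⟨k, hk⟩ := hRt ⟨ρ, hρ⟩
    have hk' : ρ ^ t ^ k = 1 := congrArg Subtype.val hk
    have hc2 : (x * ρ * x⁻¹ * ρ⁻¹) ^ t ^ k = 1 := by
      rw [hcomm'.mul_pow, conj_pow, inv_pow, hk']; simp
    have hcop : Nat.Coprime p (t ^ k) := ((Nat.coprime_primes (Fact.out : p.Prime)
      (Fact.out : t.Prime)).2 (Ne.symm htp)).pow_right k
    have hone : x * ρ * x⁻¹ * ρ⁻¹ = 1 := by
      have h2 := Nat.dvd_gcd (orderOf_dvd_of_pow_eq_one (hE.2.2 _ hcE))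
        (orderOf_dvd_of_pow_eq_one hc2)
      rw [hcop.gcd_eq_one] at h2
      exact orderOf_eq_one_iff.1 (Nat.dvd_one.1 h2)
    rw [mul_inv_eq_one] at hone
    rw [← hone]
    exact h1
  intro y
  rw [hji] at hj
  conv_rhs => rw [← hj]
  rw [mem_cj]
  simp [mul_assoc]

/-- The two-prime Robinson criterion. -/
theorem two_primes (hp : p.Prime) {r s : ℕ} (hr : r.Prime) (hs : s.Prime) (hrp : r ≠ p)
    (hsp : s ≠ p) (hperm : ∀ g i, ∃ j, cj g (L i) = L j)
    (hcomm : ∀ i j, i ≠ j → ∀ x ∈ L i, ∀ y ∈ L j, x * y = y * x)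
    (hRL : ∀ i, R i ≤ L i) (hne : ∀ i j, i ≠ j → ¬ R i ≤ L j)
    (hrs : ∀ i, IsPGroup r (R i) ∨ IsPGroup s (R i))
    (hrob : ∀ i, ∀ E ∈ Ap p G, (∀ x ∈ E, ∀ y, y ∈ L i ↔ x * y * x⁻¹ ∈ L i) →
      (∀ ρ ∈ R i, ∀ x ∈ E, ρ * x * ρ⁻¹ ∈ E) → ∀ x ∈ E, ∀ y ∈ L i, x * y = y * x)
    (hcen : ∀ x : G, x ^ p = 1 → (∀ i, ∀ y ∈ L i, x * y = y * x) → x = 1) :
    ¬ Acyclic (ZMod r) (Ap p G) ∧
      ((∀ i, IsPGroup s (R i)) → ∀ (k : Type) [Field k], ¬ Acyclic k (Ap p G)) := by
  classical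
  have := Fact.mk hp
  have := Fact.mk hr
  have := Fact.mk hs
  have := Fintype.ofFinite ι
  have hnofix : ∀ E ∈ Ap p G, (∀ i, R i ≤ stab E) → False := by
    intro E hE hfix
    refine hE.1 (eq_bot_iff.2 fun x hx => Subgroup.mem_bot.2 (hcen x (hE.2.2 x hx) fun i => ?_))
    rcases hrs i with h | h
    · exact centralises L R hrp hperm hcomm hne hRL i h (hrob i) E hE (hfix i) x hx
    · exact centralises L R hsp hperm hcomm hne hRL i h (hrob i) E hE (hfix i) x hx
  refine ⟨fun hac => ?_, fun hall k _ => ?_⟩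
  · let J := Finset.univ.filter fun i => IsPGroup r (R i)
    let Rr : Subgroup G := ⨆ i ∈ J, R i
    let Rs : Subgroup G := ⨆ i ∈ Jᶜ, R i
    have hRr : IsPGroup r Rr :=
      isPGroup_sup L R hcomm hRL J fun i hi => (Finset.mem_filter.1 hi).2
    have hRs : IsPGroup s Rs := isPGroup_sup L R hcomm hRL Jᶜ fun i hi =>
      (hrs i).resolve_left fun h => Finset.mem_compl.1 hi (by simp [J, h])
    have h1 := acyclic_fixBy _ Rr (Ap p G) rfl hRr (fun a _ E => ap_invariant p a E) hac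
    have hc : ∀ a ∈ Rs, ∀ b ∈ Rr, a * b = b * a := by
      intro a ha b hb
      have hle : Rs ≤ Subgroup.centralizer (Rr : Set G) := iSup₂_le fun i hi => by
        refine Subgroup.le_centralizer_iff.1 (iSup₂_le fun j hj y hy => ?_)
        refine Subgroup.mem_centralizer_iff.2 fun x hx => ?_
        exact hcomm i j (fun e => Finset.mem_compl.1 hi (e ▸ hj)) x (hRL i hx) y (hRL j hy)
      exact (Subgroup.mem_centralizer_iff.1 (hle ha) b hb).symm
    refine not_acyclic_of_no_fixed Rs hRs (fixBy (Ap p G) Rr) (fun a ha E => ?_)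
      (fun E hE hfix => ?_) h1
    · refine and_congr (ap_invariant p a E) (forall_congr' fun b => imp_congr_right fun hb => ?_)
      rw [mem_stab, mem_stab, ← cj_mul, ← hc a ha b hb, cj_mul]
      exact (cj a).injective.eq_iff
    · refine hnofix E hE.1 fun i => ?_
      by_cases hi : i ∈ J
      · exact le_trans (le_iSup₂ (f := fun i (_ : i ∈ J) => R i) i hi) hE.2
      · exact le_trans (le_iSup₂ (f := fun i (_ : i ∈ Jᶜ) => R i) i (Finset.mem_compl.2 hi)) hfix
  · exact not_acyclic_of_no_fixed _ (isPGroup_sup L R hcomm hRL Finset.univ fun i _ => hall i) _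
      (fun a _ E => ap_invariant p a E) fun E hE hfix => hnofix E hE fun i =>
        le_trans (le_iSup₂ (f := fun i (_ : i ∈ (Finset.univ : Finset ι)) => R i) i
          (Finset.mem_univ i)) hfix

end Main

end Vale.Agent.P240
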