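import Vale.Agent.P240.Complex

/-!
# P240: the fixed points of an automorphism of prime order of an acyclic poset are acyclic mod that
prime
-/

namespace Vale.Agent.P240

open Finset

variable {V : Type*} [PartialOrder V] [Finite V] {r : ℕ} [Fact r.Prime] {X : Set V} {g : V ≃o V}

/-- The action on simplices. -/
def img (g : V ≃o V) (σ : Finset V) : Finset V := σ.map g.toEquiv.toEmbedding

theorem mem_img {σ : Finset V} {x : V} : g x ∈ img g σ ↔ x ∈ σ :=
  Finset.mem_map' g.toEquiv.toEmbedding

theorem img_flag (hX : ∀ x, g x ∈ X ↔ x ∈ X) (σ : Finset V) :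
    IsFlag X (img g σ) ↔ IsFlag X σ := by
  constructor
  · rintro ⟨h1, h2⟩
    refine ⟨fun x hx => (hX x).1 (h1 (mem_img.2 hx)), fun x hx y hy hne => ?_⟩
    exact (h2 (mem_img.2 hx) (mem_img.2 hy) (g.injective.ne hne)).imp g.le_iff_le.1 g.le_iff_le.1
  · rintro ⟨h1, h2⟩
    refine ⟨fun y hy => ?_, fun a ha c hc hne => ?_⟩
    · obtain ⟨x, hx, rfl⟩ := Finset.mem_map.1 hy
      exact (hX x).2 (h1 hx)
    · obtain ⟨x, hx, rfl⟩ := Finset.mem_map.1 ha
      obtain ⟨y, hy, rfl⟩ := Finset.mem_map.1 hc
      exact (h2 hx hy fun e => hne (by rw [e])).imp g.le_iff_le.2 g.le_iff_le.2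

theorem mem_img_iter {σ : Finset V} : ∀ (n : ℕ) (y : V),
    y ∈ (img g)^[n] σ ↔ ∃ x ∈ σ, g^[n] x = y := by
  intro n
  induction n with
  | zero => simp
  | succ n ih =>
    intro y
    rw [Function.iterate_succ_apply', img, Finset.mem_map]
    constructor
    · rintro ⟨a, ha, rfl⟩
      obtain ⟨x, hx, rfl⟩ := (ih a).1 ha
      exact ⟨x, hx, Function.iterate_succ_apply' _ _ _⟩
    · rintro ⟨x, hx, rfl⟩
      exact ⟨g^[n] x, (ih _).2 ⟨x, hx, rfl⟩, (Function.iterate_succ_apply' _ _ _).symm⟩

theorem img_period (hr : ∀ x ∈ X, g^[r] x = x) {σ : Finset V} (hσ : IsFlag X σ) :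
    (img g)^[r] σ = σ := by
  ext y
  rw [mem_img_iter]
  exact ⟨fun ⟨x, hx, e⟩ => by rwa [← e, hr x (hσ.1 hx)], fun hy => ⟨y, hy, hr y (hσ.1 hy)⟩⟩

theorem img_fixed (hr : ∀ x ∈ X, g^[r] x = x) {σ : Finset V} (hσ : IsFlag X σ) :
    img g σ = σ ↔ IsFlag {x ∈ X | g x = x} σ := by
  constructor
  · intro h
    refine ⟨fun x hx => ⟨hσ.1 hx, ?_⟩, hσ.2⟩
    have hgx : g x ∈ σ := h ▸ mem_img.2 hx
    by_contra hne
    have hrpos : 0 < r := (Fact.out : r.Prime).pos
    rcases hσ.2 hgx hx hne with h1 | h1
    · have h2 : ∀ n, 0 < n → g^[n] x < x := fun n => by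
        induction n with
        | zero => omega
        | succ n ih =>
          intro _
          rw [Function.iterate_succ_apply']
          rcases Nat.eq_zero_or_pos n with rfl | hn
          · exact lt_of_le_of_ne h1 hne
          · exact lt_of_lt_of_le (g.lt_iff_lt.2 (ih hn)) h1
      exact (h2 r hrpos).ne (hr x (hσ.1 hx))
    · have h2 : ∀ n, 0 < n → x < g^[n] x := fun n => by
        induction n with
        | zero => omega
        | succ n ih =>
          intro _
          rw [Function.iterate_succ_apply']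
          rcases Nat.eq_zero_or_pos n with rfl | hn
          · exact lt_of_le_of_ne h1 (Ne.symm hne)
          · exact lt_of_le_of_lt h1 (g.lt_iff_lt.2 (ih hn))
      exact (h2 r hrpos).ne (hr x (hσ.1 hx)).symm
  · intro h
    ext y
    constructor
    · intro hy
      obtain ⟨x, hx, rfl⟩ := Finset.mem_map.1 hy
      exact (h.1 hx).2.symm ▸ hx
    · intro hy
      rw [← (h.1 hy).2]
      exact mem_img.2 hy

/-- Pullback along the automorphism. -/
def pull (g : V ≃o V) (n : ℕ) :
    (Finset V → ZMod r) →ₗ[ZMod r] (Finset V → ZMod r) where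
  toFun f := fun σ => f ((img g)^[n] σ)
  map_add' _ _ := rfl
  map_smul' _ _ := rfl

theorem supp_pull (hX : ∀ x, g x ∈ X ↔ x ∈ X) (n : ℕ) {f : Finset V → ZMod r} (hf : Supp X f) :
    Supp X (pull g n f) := by
  intro σ hσ
  refine hf _ ?_
  induction n generalizing σ with
  | zero => exact hσ
  | succ n ih =>
    rw [Function.iterate_succ_apply]
    exact ih _ fun h => hσ ((img_flag hX σ).1 h)

theorem bd_pull (n : ℕ) (f : Finset V → ZMod r) :
    bd (ZMod r) V (pull g n f) = pull g n (bd (ZMod r) V f) := by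
  classical
  have := Fintype.ofFinite V
  induction n generalizing f with
  | zero => rfl
  | succ n ih =>
    have e : ∀ f' : Finset V → ZMod r, pull g (n + 1) f' = pull g 1 (pull g n f') := fun f' =>
      funext fun σ => by
        show f' _ = f' _
        rw [Function.iterate_one, Function.iterate_succ_apply]
    rw [e, e, ← ih]
    funext σ
    show _ = bd (ZMod r) V _ (img g σ)
    rw [bd_apply, bd_apply]
    refine Finset.sum_equiv g.toEquiv (fun x => ?_) (fun x hx => ?_)
    · simp only [Finset.mem_filter, Finset.mem_univ, true_and]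
      exact not_congr mem_img.symm
    · congr 1
      · congr 1
        rw [show (img g σ).filter (fun y => y < g.toEquiv x) = img g (σ.filter fun y => y < x) from ?_]
        · exact (Finset.card_map _).symm
        · rw [img, img, Finset.filter_map]
          congr 1
          refine Finset.filter_congr fun y _ => ?_
          exact g.lt_iff_lt
      · show (pull g n f) _ = (pull g n f) _
        rw [Function.iterate_one]
        exact congrArg _ (Finset.map_insert _ _ _)

/-- The transfer. -/
def nrm (g : V ≃o V) : (Finset V → ZMod r) →ₗ[ZMod r] (Finset V → ZMod r) :=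
  ∑ i ∈ range r, pull g i

/-- The difference. -/
def dif (g : V ≃o V) : (Finset V → ZMod r) →ₗ[ZMod r] (Finset V → ZMod r) :=
  pull g 0 - pull g 1

open Classical in
/-- One simplex in each free orbit. -/
noncomputable def pick (r : ℕ) (X : Set V) (g : V ≃o V) (σ : Finset V) : Prop :=
  letI := Fintype.ofFinite (Finset V)
  IsFlag X σ ∧ img g σ ≠ σ ∧
    ∀ i < r, Fintype.equivFin (Finset V) σ ≤ Fintype.equivFin (Finset V) ((img g)^[i] σ)

theorem free_orbit (hr : ∀ x ∈ X, g^[r] x = x) {σ : Finset V} (hσ : IsFlag X σ)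
    (hne : img g σ ≠ σ) {i j : ℕ} (hi : i < r) (hj : j < r)
    (h : (img g)^[i] σ = (img g)^[j] σ) : i = j := by
  have hinj : Function.Injective (img g) := Finset.map_injective _
  wlog hij : i ≤ j generalizing i j
  · exact (this hj hi h.symm (le_of_not_ge hij)).symm
  by_contra hne'
  obtain ⟨d, rfl⟩ := Nat.exists_eq_add_of_le hij
  rw [Function.iterate_add_apply] at h
  have h1 : Function.IsPeriodicPt (img g) d σ := ((hinj.iterate i) h).symm
  have h2 : Function.IsPeriodicPt (img g) r σ := img_period hr hσ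
  have h3 := h1.gcd h2
  have hcop : Nat.gcd d r = 1 := Nat.Coprime.symm
    (((Fact.out : r.Prime).coprime_iff_not_dvd).2 fun hd => by
      have := Nat.le_of_dvd (by omega) hd
      omega)
  rw [hcop] at h3
  exact hne h3

open Classical in
theorem pick_sum (hX : ∀ x, g x ∈ X ↔ x ∈ X) (hr : ∀ x ∈ X, g^[r] x = x) {σ : Finset V}
    (hσ : IsFlag X σ) :
    ∑ i ∈ range r, (if pick r X g ((img g)^[i] σ) then (1 : ZMod r) else 0) =
      if img g σ = σ then 0 else 1 := by
  have := Fintype.ofFinite (Finset V)
  have hinj : Function.Injective (img g) := Finset.map_injective _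
  split_ifs with h
  · refine Finset.sum_eq_zero fun i _ => if_neg fun hp => hp.2.1 ?_
    rw [Function.iterate_fixed h]; exact h
  have hrp : 0 < r := (Fact.out : r.Prime).pos
  obtain ⟨i₀, hi₀, hmin⟩ := Finset.exists_min_image (range r)
    (fun i => Fintype.equivFin (Finset V) ((img g)^[i] σ)) ⟨0, by simpa using hrp⟩
  rw [Finset.mem_range] at hi₀
  have hflag : ∀ n, IsFlag X ((img g)^[n] σ) := fun n => by
    induction n with
    | zero => exact hσ
    | succ n ih => rw [Function.iterate_succ_apply']; exact (img_flag hX _).2 ih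
  have hmov : ∀ n, img g ((img g)^[n] σ) ≠ (img g)^[n] σ := fun n e => h ((hinj.iterate n) (by
    rw [← Function.iterate_succ_apply, Function.iterate_succ_apply', e]))
  have hmod : ∀ n, (img g)^[n] σ = (img g)^[n % r] σ := fun n =>
    ((show Function.IsPeriodicPt (img g) r σ from img_period hr hσ).iterate_mod_apply n).symm
  have hpick : ∀ i < r, pick r X g ((img g)^[i] σ) ↔ i = i₀ := by
    intro i hi
    simp only [pick, hflag, true_and, ne_eq, hmov, not_false_iff]
    rw [Subsingleton.elim (Fintype.ofFinite (Finset V)) this]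
    constructor
    · intro hall
      have h1 := hall ((i₀ + (r - i)) % r) (Nat.mod_lt _ hrp)
      rw [← Function.iterate_add_apply, hmod ((i₀ + (r - i)) % r + i), show ((i₀ + (r - i)) % r + i) % r = i₀ from by
        rw [Nat.mod_add_mod, show i₀ + (r - i) + i = i₀ + r by omega, Nat.add_mod_right,
          Nat.mod_eq_of_lt hi₀]] at h1
      exact free_orbit hr hσ h hi hi₀ ((Fintype.equivFin _).injective
        (le_antisymm h1 (hmin i (Finset.mem_range.2 hi))))
    · rintro rfl j hj
      rw [← Function.iterate_add_apply, hmod (j + _)]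
      exact hmin _ (Finset.mem_range.2 (Nat.mod_lt _ hrp))
  rw [Finset.sum_eq_single i₀ (fun i hi hne => if_neg fun hp =>
    hne ((hpick i (Finset.mem_range.1 hi)).1 hp)) (fun hni => absurd (Finset.mem_range.2 hi₀) hni),
    if_pos ((hpick i₀ hi₀).2 rfl)]

/-- A class is either a transfer or a difference, with the fixed part. -/
theorem smith (hX : ∀ x, g x ∈ X ↔ x ∈ X) (hr : ∀ x ∈ X, g^[r] x = x)
    (h : Acyclic (ZMod r) X) : Acyclic (ZMod r) {x ∈ X | g x = x} := by
  classical
  have := Fintype.ofFinite V
  set F : Set V := {x ∈ X | g x = x}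
  have hrp : 0 < r := (Fact.out : r.Prime).pos
  have hFX : ∀ {f : Finset V → ZMod r}, Supp F f → Supp X f := fun {f} hf σ hσ =>
    hf σ fun h' => hσ ⟨fun x hx => (h'.1 hx).1, h'.2⟩
  have hfix : ∀ {σ}, IsFlag F σ → IsFlag X σ ∧ img g σ = σ := fun {σ} hσ =>
    have hσX : IsFlag X σ := ⟨fun x hx => (hσ.1 hx).1, hσ.2⟩
    ⟨hσX, (img_fixed hr hσX).2 hσ⟩
  have hcase : ∀ σ, IsFlag F σ ∨ ¬ IsFlag X σ ∨ img g σ ≠ σ := fun σ => by
    by_cases h1 : IsFlag X σ
    · by_cases h2 : img g σ = σ
      · exact Or.inl ((img_fixed hr h1).1 h2)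
      · exact Or.inr (Or.inr h2)
    · exact Or.inr (Or.inl h1)
  have hSS : ∀ {f : Finset V → ZMod r}, Supp X f → Supp X (nrm g f) ∧ Supp X (dif g f) :=
    fun {f} hf => ⟨fun σ hσ => by
      simp only [nrm, LinearMap.sum_apply, Finset.sum_apply]
      exact Finset.sum_eq_zero fun i _ => supp_pull hX i hf σ hσ,
      fun σ hσ => by
        simp only [dif, LinearMap.sub_apply, Pi.sub_apply, supp_pull hX _ hf σ hσ, sub_zero]⟩
  -- on fixed simplices both maps vanish
  have hzero : ∀ (f : Finset V → ZMod r) σ, img g σ = σ → nrm g f σ = 0 ∧ dif g f σ = 0 := by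
    intro f σ hσ
    refine ⟨?_, ?_⟩
    · simp only [nrm, LinearMap.sum_apply, Finset.sum_apply, pull, LinearMap.coe_mk, AddHom.coe_mk,
        Function.iterate_fixed hσ, Finset.sum_const, Finset.card_range, nsmul_eq_mul,
        ZMod.natCast_self, zero_mul]
    · simp [dif, pull, hσ]
  have hper : ∀ {f : Finset V → ZMod r}, Supp X f → pull g r f = pull g 0 f := by
    intro f hf
    funext σ
    by_cases hσ : IsFlag X σ
    · show f _ = f σ
      rw [img_period hr hσ]
    · rw [supp_pull hX r hf σ hσ, supp_pull hX 0 hf σ hσ]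
  have hpp : ∀ i j (f : Finset V → ZMod r), pull g i (pull g j f) = pull g (j + i) f :=
    fun i j f => funext fun σ => by
      show f _ = f _
      rw [Function.iterate_add_apply]
  have hshift : ∀ {f : Finset V → ZMod r}, Supp X f →
      ∑ i ∈ range r, pull g (i + 1) f = nrm g f := by
    intro f hf
    simp only [nrm, LinearMap.sum_apply]
    have h1 := Finset.sum_range_succ' (fun i => pull g i f) r
    rw [Finset.sum_range_succ, hper hf] at h1
    exact (add_right_cancel h1).symm
  have hnd : ∀ {f : Finset V → ZMod r}, Supp X f → nrm g (dif g f) = 0 ∧ dif g (nrm g f) = 0 := by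
    intro f hf
    refine ⟨?_, ?_⟩
    · have e : nrm g (dif g f) = ∑ i ∈ range r, (pull g i f - pull g (i + 1) f) := by
        simp only [nrm, dif, LinearMap.sum_apply, LinearMap.sub_apply, map_sub, hpp, zero_add,
          Nat.add_comm 1, Finset.sum_sub_distrib]
      rw [e, Finset.sum_sub_distrib, hshift hf]
      simp [nrm]
    · have e : dif g (nrm g f) = nrm g f - ∑ i ∈ range r, pull g (i + 1) f := by
        simp only [nrm, dif, LinearMap.sum_apply, LinearMap.sub_apply, map_sum, hpp, add_zero,
          Finset.sum_sub_distrib]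
      rw [e, hshift hf, sub_self]
  have hbdcomm : ∀ (f : Finset V → ZMod r), bd (ZMod r) V (nrm g f) = nrm g (bd (ZMod r) V f) ∧
      bd (ZMod r) V (dif g f) = dif g (bd (ZMod r) V f) := fun f => by
    simp [nrm, dif, map_sum, map_sub, bd_pull]
  let u : Finset V → ZMod r := fun σ => if pick r X g σ then 1 else 0
  let fixPart : (Finset V → ZMod r) → (Finset V → ZMod r) := fun f σ =>
    if IsFlag F σ then f σ else 0
  have hfp : ∀ f, Supp F (fixPart f) := fun f σ hσ => if_neg hσ
  have hu : ∀ f : Finset V → ZMod r, Supp X (fun σ => u σ * f σ) := fun f σ hσ => by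
    simp [u, pick, hσ]
  have hsum : ∀ {σ}, IsFlag X σ → ∑ i ∈ range r, u ((img g)^[i] σ) =
      if IsFlag F σ then 0 else 1 := fun {σ} hσ => by
    simp only [u, pick_sum hX hr hσ, img_fixed hr hσ, F]
  have hdecA : ∀ {f : Finset V → ZMod r}, Supp X f → dif g f = 0 →
      ∃ y, Supp X y ∧ f = nrm g y + fixPart f := by
    intro f hf hd
    refine ⟨fun σ => u σ * f σ, hu f, funext fun σ => ?_⟩
    by_cases hσ : IsFlag X σ
    · have hinv : ∀ i, f ((img g)^[i] σ) = f σ := fun i => by
        induction i with
        | zero => rfl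
        | succ i ih =>
          rw [Function.iterate_succ_apply', ← ih]
          have h1 := congrFun hd ((img g)^[i] σ)
          simp only [dif, pull, LinearMap.sub_apply, Pi.sub_apply, LinearMap.coe_mk, AddHom.coe_mk,
            Function.iterate_zero, id_eq, Function.iterate_one, Pi.zero_apply, sub_eq_zero] at h1
          exact h1.symm
      simp only [Pi.add_apply, nrm, pull, LinearMap.sum_apply, Finset.sum_apply, LinearMap.coe_mk,
        AddHom.coe_mk, hinv, ← Finset.sum_mul, hsum hσ, fixPart]
      split_ifs <;> simp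
    · rw [Pi.add_apply, (hSS (hu f)).1 σ hσ, hFX (hfp f) σ hσ, hf σ hσ, add_zero]
  have hdecB : ∀ {f : Finset V → ZMod r}, Supp X f → nrm g f = 0 →
      ∃ y, Supp X y ∧ f = dif g y + fixPart f := by
    intro f hf hn
    let w : ℕ → (Finset V → ZMod r) := fun i σ => u σ * pull g (r - i) f σ
    have hw : ∀ i, Supp X (w i) := fun i => hu _
    refine ⟨-∑ i ∈ range r, ∑ j ∈ range i, pull g j (w i), fun σ hσ => ?_, funext fun σ => ?_⟩
    · simp only [Pi.neg_apply, Finset.sum_apply, neg_eq_zero]
      exact Finset.sum_eq_zero fun i _ => Finset.sum_eq_zero fun j _ =>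
        supp_pull hX j (hw i) σ hσ
    · have htel : ∀ i, dif g (∑ j ∈ range i, pull g j (w i)) = pull g 0 (w i) - pull g i (w i) := by
        intro i
        simp only [dif, LinearMap.sub_apply, map_sum, hpp, add_zero, ← Finset.sum_sub_distrib]
        exact Finset.sum_range_sub' (fun j => pull g j (w i)) i
      rw [map_neg, map_sum, Finset.sum_congr rfl fun i _ => htel i, Finset.sum_sub_distrib]
      simp only [Pi.add_apply, Pi.neg_apply, Pi.sub_apply, Finset.sum_apply, neg_sub]
      by_cases hσ : IsFlag X σ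
      · have h1 : ∑ i ∈ range r, pull g 0 (w i) σ = 0 := by
          show ∑ i ∈ range r, u σ * f ((img g)^[r - i] σ) = 0
          rw [← Finset.mul_sum, ← Finset.sum_range_reflect]
          have h2 := congrFun (hshift hf) σ
          rw [hn, Finset.sum_apply] at h2
          rw [show ∑ j ∈ range r, f ((img g)^[r - (r - 1 - j)] σ) = 0 from
            Eq.trans (Finset.sum_congr rfl fun j hj => by
              rw [Finset.mem_range] at hj
              rw [show r - (r - 1 - j) = j + 1 by omega]
              rfl) h2, mul_zero]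
        have h3 : ∑ i ∈ range r, pull g i (w i) σ =
            (∑ i ∈ range r, u ((img g)^[i] σ)) * f σ := by
          rw [Finset.sum_mul]
          refine Finset.sum_congr rfl fun i hi => ?_
          show u _ * f ((img g)^[r - i] ((img g)^[i] σ)) = _
          rw [← Function.iterate_add_apply, Nat.sub_add_cancel (Finset.mem_range.1 hi).le,
            img_period hr hσ]
        rw [h1, h3, hsum hσ, sub_zero]
        simp only [fixPart]
        split_ifs <;> simp
      · rw [Finset.sum_eq_zero fun i _ => supp_pull hX i (hw i) σ hσ,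
          Finset.sum_eq_zero fun i _ => supp_pull hX 0 (hw i) σ hσ, hFX (hfp f) σ hσ, hf σ hσ]
        simp
  -- descending induction on the size of simplices
  let P : ℕ → ((Finset V → ZMod r) →ₗ[ZMod r] (Finset V → ZMod r)) → Prop := fun n D =>
    ∀ y b, Supp X y → Supp F b → res (· = n) (D y) = D y → res (· = n) b = b →
      bd (ZMod r) V (D y) = 0 → bd (ZMod r) V b = 0 →
      ∃ y' b', Supp X y' ∧ Supp F b' ∧ D y = bd (ZMod r) V (D y') ∧ b = bd (ZMod r) V b'
  have hstep : ∀ n (D D' : (Finset V → ZMod r) →ₗ[ZMod r] (Finset V → ZMod r)),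
      (∀ {f}, Supp X f → D' (D f) = 0) →
      (∀ {f}, Supp X f → Supp X (D f) ∧ Supp X (D' f)) →
      (∀ f σ, img g σ = σ → D f σ = 0 ∧ D' f σ = 0) →
      (∀ f, bd (ZMod r) V (D f) = D (bd (ZMod r) V f) ∧ bd (ZMod r) V (D' f) = D' (bd (ZMod r) V f)) →
      (∀ {b}, Supp F b → D' b = 0) →
      (∀ {f}, res (· = n + 1) f = f → res (· = n + 1) (D' f) = D' f) →
      (∀ {f}, Supp X f → D' f = 0 → ∃ y, Supp X y ∧ f = D y + fixPart f) →
      P (n + 1) D' → P n D := by
    intro n D D' hDD hS hz hc hb hres hdec ih y b hy hb' hny hnb hcy hcb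
    obtain ⟨c₀, hc₀, hc₀b⟩ := h (D y + b)
      (fun σ hσ => by rw [Pi.add_apply, (hS hy).1 σ hσ, hFX hb' σ hσ, add_zero])
      (by rw [map_add, hcy, hcb, add_zero])
    let c := res (k := ZMod r) (fun m => m = n + 1) c₀
    have hcX : Supp X c := supp_res _ hc₀
    have hcb' : bd (ZMod r) V c = D y + b := by
      rw [bd_res, hc₀b, map_add]
      simp only [Nat.add_right_cancel_iff]
      rw [hny, hnb]
    have hcn : res (· = n + 1) c = c := funext fun σ => by
      simp only [c, res, LinearMap.coe_mk, AddHom.coe_mk]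
      split_ifs <;> rfl
    obtain ⟨d, -, hd, -, hde, -⟩ := ih c 0 hcX (fun σ _ => rfl) (hres hcn) (by simp)
      (by rw [(hc c).2, hcb', map_add, hDD hy, hb hb', add_zero]) (map_zero _)
    obtain ⟨e, he, hee⟩ := hdec (f := c - bd (ZMod r) V d)
      (fun σ hσ => by rw [Pi.sub_apply, hcX σ hσ, supp_bd hd σ hσ, sub_zero])
      (by rw [map_sub, hde, (hc d).2, sub_self])
    set f := fixPart (c - bd (ZMod r) V d)
    have hsplit : D y + b = bd (ZMod r) V (D e) + bd (ZMod r) V f := by
      rw [← map_add, ← hee, map_sub, bd_bd hd, sub_zero, hcb']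
    have hbf : b = bd (ZMod r) V f := funext fun σ => by
      rcases hcase σ with hσ | hσ
      · have h1 := congrFun hsplit σ
        rwa [Pi.add_apply, Pi.add_apply, (hc e).1, (hz y σ (hfix hσ).2).1,
          (hz _ σ (hfix hσ).2).1, zero_add, zero_add] at h1
      · have hn' : ¬ IsFlag F σ := fun h' =>
          hσ.elim (fun h2 => h2 (hfix h').1) (fun h2 => h2 (hfix h').2)
        rw [hb' σ hn', supp_bd (hfp _) σ hn']
    refine ⟨e, f, he, hfp _, ?_, hbf⟩
    rw [← hbf] at hsplit
    exact add_right_cancel hsplit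
  have hresD : ∀ n {f : Finset V → ZMod r}, res (· = n) f = f →
      res (· = n) (nrm g f) = nrm g f ∧ res (· = n) (dif g f) = dif g f := by
    intro n f hf
    have hcard : ∀ i σ, ((img g)^[i] σ).card = σ.card := fun i σ => by
      induction i with
      | zero => rfl
      | succ i ih => rw [Function.iterate_succ_apply', img, Finset.card_map, ih]
    have hp : ∀ i, res (· = n) (pull g i f) = pull g i f := fun i => funext fun σ => by
      simp only [res, pull, LinearMap.coe_mk, AddHom.coe_mk]
      split_ifs with hn'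
      · rfl
      · have h1 := congrFun hf ((img g)^[i] σ)
        simp only [res, LinearMap.coe_mk, AddHom.coe_mk, hcard, if_neg hn'] at h1
        exact h1
    simp only [nrm, dif, LinearMap.sum_apply, LinearMap.sub_apply, map_sum, map_sub, hp, and_self]
  have hbfix : ∀ {b : Finset V → ZMod r}, Supp F b → nrm g b = 0 ∧ dif g b = 0 := by
    intro b hb
    refine ⟨funext fun σ => ?_, funext fun σ => ?_⟩
    · rcases hcase σ with hσ | hσ | hσ
      · exact (hzero b σ (hfix hσ).2).1
      · exact (hSS (hFX hb)).1 σ hσ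
      · simp only [nrm, LinearMap.sum_apply, Finset.sum_apply, Pi.zero_apply]
        refine Finset.sum_eq_zero fun i _ => hb _ fun h' => hσ ?_
        refine ((show Function.Injective (img g) from Finset.map_injective _).iterate i) ?_
        rw [← Function.iterate_succ_apply, Function.iterate_succ_apply']
        exact (hfix h').2
    · rcases hcase σ with hσ | hσ | hσ
      · exact (hzero b σ (hfix hσ).2).2
      · exact (hSS (hFX hb)).2 σ hσ
      · simp only [dif, pull, LinearMap.sub_apply, Pi.sub_apply, LinearMap.coe_mk, AddHom.coe_mk,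
          Function.iterate_zero, id_eq, Function.iterate_one, Pi.zero_apply]
        rw [hb σ fun h' => hσ (hfix h').2, hb _ fun h' => hσ ?_, sub_zero]
        exact Finset.map_injective _ (hfix h').2
  have hall : ∀ m n, Fintype.card V < n + m → P n (nrm g) ∧ P n (dif g) := by
    intro m
    induction m with
    | zero =>
      intro n hn
      have hz : ∀ {f : Finset V → ZMod r}, res (· = n) f = f → f = 0 := fun {f} hf =>
        funext fun σ => by
          rw [← hf]
          simp only [res, LinearMap.coe_mk, AddHom.coe_mk]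
          rw [if_neg]
          · rfl
          have := Finset.card_le_univ σ
          omega
      constructor <;> intro y b hy hb hny hnb _ _ <;>
        exact ⟨0, 0, fun _ _ => rfl, fun _ _ => rfl, by rw [hz hny]; simp, by rw [hz hnb]; simp⟩
    | succ m ih =>
      intro n hn
      obtain ⟨i1, i2⟩ := ih (n + 1) (by omega)
      exact ⟨hstep n (nrm g) (dif g) (fun hf => (hnd hf).2) hSS hzero hbdcomm
          (fun hb => (hbfix hb).2) (fun hf => (hresD _ hf).2) hdecA i2,
        hstep n (dif g) (nrm g) (fun hf => (hnd hf).1) (fun hf => (hSS hf).symm)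
          (fun f σ hσ => (hzero f σ hσ).symm) (fun f => (hbdcomm f).symm)
          (fun hb => (hbfix hb).1) (fun hf => (hresD _ hf).1) hdecB i1⟩
  intro f hf hcyc
  let part : ℕ → (Finset V → ZMod r) := fun n => res (fun m => m = n) f
  have hpc : ∀ n, bd (ZMod r) V (part n) = 0 := fun n => by
    show bd (ZMod r) V (res _ f) = 0
    rw [bd_res, hcyc, map_zero]
  have hp : ∀ n, ∃ b', Supp F b' ∧ part n = bd (ZMod r) V b' := fun n => by
    have hn : res (· = n) (part n) = part n := funext fun σ => by
      simp only [part, res, LinearMap.coe_mk, AddHom.coe_mk]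
      split_ifs <;> rfl
    obtain ⟨_, b', -, hb', -, e⟩ := (hall (Fintype.card V + 1) n (by omega)).1 0 (part n)
      (fun _ _ => rfl) (supp_res _ hf) (by simp) hn (by simp) (hpc n)
    exact ⟨b', hb', e⟩
  choose b' hb' hbe using hp
  refine ⟨∑ n ∈ range (Fintype.card V + 1), b' n, fun σ hσ => ?_, ?_⟩
  · rw [Finset.sum_apply]
    exact Finset.sum_eq_zero fun n _ => hb' n σ hσ
  · rw [map_sum, Finset.sum_congr rfl fun n _ => (hbe n).symm]
    funext σ
    rw [Finset.sum_apply, Finset.sum_eq_single σ.card
      (fun n _ hn => by simp [part, res, Ne.symm hn]) (fun hni => absurd (Finset.mem_range.2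
        (Nat.lt_succ_of_le (Finset.card_le_univ σ))) hni)]
    simp [part, res]

end Vale.Agent.P240
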