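import Vale.Agent.P240.Robinson
import Vale.Agent.P240.Lefschetz

/-!
# P240: fixed points of a prime power group, then a cyclic group, then a second prime power group
-/

namespace Vale.Agent.P240

variable {G : Type*} [Group G] [Finite G]

/-- A simplex fixed by a conjugation is fixed vertexwise. -/
theorem flag_fixed_iff (y : G) (X : Set (Subgroup G)) (σ : Finset (Subgroup G)) :
    IsFlag {E ∈ X | cj y E = E} σ ↔ IsFlag X σ ∧ img (cj y) σ = σ := by
  constructor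
  · intro h
    refine ⟨⟨fun E hE => (h.1 hE).1, h.2⟩, ?_⟩
    ext E
    constructor
    · intro hE
      obtain ⟨F, hF, rfl⟩ := Finset.mem_map.1 hE
      exact (h.1 hF).2.symm ▸ hF
    · intro hE
      rw [← (h.1 hE).2]
      exact mem_img.2 hE
  · rintro ⟨h, hfix⟩
    refine ⟨fun E hE => ⟨h.1 hE, ?_⟩, h.2⟩
    have h2 : cj y E ∈ σ := hfix ▸ mem_img.2 hE
    rcases h.2.total h2 hE with h3 | h3
    · exact Subgroup.eq_of_le_of_card_ge h3 (card_cj y E).ge
    · exact (Subgroup.eq_of_le_of_card_ge h3 (card_cj y E).le).symm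

/-- A cyclic group, then a prime power group without common fixed point. -/
theorem no_homotopy {s : ℕ} [Fact s.Prime] (X : Set (Subgroup G)) (y : G) (U : Subgroup G)
    (hU : IsPGroup s U) (hy : ∀ E, cj y E ∈ X ↔ E ∈ X)
    (hinv : ∀ a ∈ U, ∀ E, cj a E ∈ X ↔ E ∈ X) (hcomm : ∀ a ∈ U, a * y = y * a)
    (hfix : ∀ E ∈ X, cj y E = E → ¬ U ≤ stab E) [Fintype {σ // IsFlag X σ}]
    [DecidableEq {σ // IsFlag X σ}] (H : Matrix {σ // IsFlag X σ} {σ // IsFlag X σ} ℚ) :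
    bdm ℚ X * H + H * bdm ℚ X ≠ 1 := by
  intro hH
  have h0 := lefschetz (cj y) hy H hH
  have hcard : ∀ P : ℕ → Prop,
      Nat.card {σ : Finset (Subgroup G) // IsFlag {E ∈ X | cj y E = E} σ ∧ P σ.card} =
        Nat.card {σ : Finset (Subgroup G) // IsFlag X σ ∧ img (cj y) σ = σ ∧ P σ.card} :=
    fun P => Nat.card_congr (Equiv.subtypeEquivRight fun σ => by rw [flag_fixed_iff, and_assoc])
  have hinv2 : ∀ a ∈ U, ∀ E, cj a E ∈ {E ∈ X | cj y E = E} ↔ E ∈ {E ∈ X | cj y E = E} := by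
    intro a ha E
    refine and_congr (hinv a ha E) ?_
    rw [← cj_mul, ← hcomm a ha, cj_mul]
    exact (cj a).injective.eq_iff
  have h1 := card_flags_modEq (s := s) U hU _ hinv2 (fun E hE => hfix E hE.1 hE.2) Even
  have h2 := card_flags_modEq (s := s) U hU _ hinv2 (fun E hE => hfix E hE.1 hE.2) Odd
  rw [hcard] at h1 h2
  rw [h0] at h1
  have h3 := h1.symm.trans h2
  rw [show Nat.card {u : Unit // Even 0} = 1 by simp, show Nat.card {u : Unit // Odd 0} = 0 by simp,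
    Nat.ModEq, Nat.zero_mod, Nat.mod_eq_of_lt (Fact.out : s.Prime).one_lt] at h3
  exact one_ne_zero h3

/-- The three-stage criterion. -/
theorem three_stages {r s : ℕ} [Fact r.Prime] [Fact s.Prime] (X : Set (Subgroup G))
    (hX : ∀ a E, cj a E ∈ X ↔ E ∈ X) (U₁ : Subgroup G) (y : G) (U₂ : Subgroup G)
    (h₁ : IsPGroup r U₁) (h₂ : IsPGroup s U₂) (hy₁ : ∀ b ∈ U₁, y * b = b * y)
    (h₁₂ : ∀ a ∈ U₂, ∀ b ∈ U₁, a * b = b * a) (hy₂ : ∀ a ∈ U₂, a * y = y * a)
    (hfix : ∀ E ∈ X, U₁ ≤ stab E → y ∈ stab E → ¬ U₂ ≤ stab E) :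
    ¬ Acyclic (ZMod r) X ∧ (U₁ = ⊥ → ¬ Acyclic ℚ X) := by
  classical
  refine ⟨fun h => ?_, fun hbot h => ?_⟩
  · have h' := acyclic_fixBy _ U₁ X rfl h₁ (fun a _ => hX a) h
    have hc : ∀ a, (∀ b ∈ U₁, a * b = b * a) → ∀ E, cj a E ∈ fixBy X U₁ ↔ E ∈ fixBy X U₁ :=
      fun a ha E => and_congr (hX a E) (forall_congr' fun b => imp_congr_right fun hb => by
        rw [mem_stab, mem_stab, ← cj_mul, ← ha b hb, cj_mul]
        exact (cj a).injective.eq_iff)
    have := Fintype.ofFinite {σ : Finset (Subgroup G) // IsFlag (fixBy X U₁) σ}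
    obtain ⟨H, hH⟩ := rat_homotopy h'
    exact no_homotopy _ y U₂ h₂ (hc y hy₁) (fun a ha => hc a (h₁₂ a ha)) hy₂
      (fun E hE h1 => hfix E hE.1 hE.2 h1) H hH
  · have := Fintype.ofFinite {σ : Finset (Subgroup G) // IsFlag X σ}
    obtain ⟨H, hH⟩ := rat_homotopy' h
    exact no_homotopy _ y U₂ h₂ (hX y) (fun a _ => hX a) hy₂
      (fun E hE h1 => hfix E hE (hbot ▸ bot_le) h1) H hH

end Vale.Agent.P240
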